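import Vale.Agent.Lib.P047.Defs

namespace Vale.Agent.Lib.P047

open Finset

variable {n : ℕ}

/-- one-coordinate weight under bias `t` -/
noncomputable def w1 (t : ℝ) (b : Bool) : ℝ := (1 + t * sgn b) / 2

noncomputable def wt (t : ℝ) (x : Fin n → Bool) : ℝ := ∏ i, w1 t (x i)

noncomputable def Et (t : ℝ) (g : (Fin n → Bool) → ℝ) : ℝ := ∑ x, wt t x * g x

lemma w1_true (t : ℝ) : w1 t true = (1 + t) / 2 := by simp [w1, sgn]

lemma w1_false (t : ℝ) : w1 t false = (1 - t) / 2 := by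
  simp [w1, sgn]
  ring

lemma sum_bool_w1 (t : ℝ) (c : Bool → ℝ) :
    ∑ b, w1 t b * c b = (1 + t) / 2 * c true + (1 - t) / 2 * c false := by
  rw [Fintype.sum_bool, w1_true, w1_false]

lemma sum_bool_w1_one (t : ℝ) : ∑ b, w1 t b = 1 := by
  rw [Fintype.sum_bool, w1_true, w1_false]
  ring

lemma Et_prod (t : ℝ) (g : Fin n → Bool → ℝ) :
    Et t (fun x => ∏ i, g i (x i)) = ∏ i, ∑ b, w1 t b * g i b := by
  have h := Finset.prod_univ_sum (fun _ : Fin n => (Finset.univ : Finset Bool))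
    (fun i b => w1 t b * g i b)
  rw [h, Fintype.piFinset_univ]
  unfold Et wt
  refine Finset.sum_congr rfl (fun x _ => ?_)
  rw [Finset.prod_mul_distrib]

lemma Et_add (t : ℝ) (g h : (Fin n → Bool) → ℝ) :
    Et t (fun x => g x + h x) = Et t g + Et t h := by
  unfold Et
  rw [← Finset.sum_add_distrib]
  refine Finset.sum_congr rfl (fun x _ => ?_)
  ring

lemma Et_const_mul (t c : ℝ) (g : (Fin n → Bool) → ℝ) :
    Et t (fun x => c * g x) = c * Et t g := by
  unfold Et
  rw [Finset.mul_sum]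
  refine Finset.sum_congr rfl (fun x _ => ?_)
  ring

lemma Et_sum {α : Type*} (s : Finset α) (t : ℝ) (g : α → (Fin n → Bool) → ℝ) :
    Et t (fun x => ∑ a ∈ s, g a x) = ∑ a ∈ s, Et t (g a) := by
  unfold Et
  simp_rw [Finset.mul_sum]
  rw [Finset.sum_comm]

lemma Et_one (t : ℝ) : Et t (fun _ : Fin n → Bool => (1 : ℝ)) = 1 := by
  have := Et_prod (n := n) t (fun _ _ => 1)
  simp only [Finset.prod_const_one, mul_one] at this
  rw [this]
  simp only [sum_bool_w1_one, Finset.prod_const_one]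

lemma w1_nonneg {t : ℝ} (ht : |t| ≤ 1) (b : Bool) : 0 ≤ w1 t b := by
  have := abs_le.mp ht
  unfold w1 sgn
  cases b <;> simp <;> linarith [this.1, this.2]

lemma w1_pos {t : ℝ} (ht : |t| < 1) (b : Bool) : 0 < w1 t b := by
  have := abs_lt.mp ht
  unfold w1 sgn
  cases b <;> simp <;> linarith [this.1, this.2]

lemma wt_nonneg {t : ℝ} (ht : |t| ≤ 1) (x : Fin n → Bool) : 0 ≤ wt t x :=
  Finset.prod_nonneg (fun i _ => w1_nonneg ht (x i))

lemma wt_pos {t : ℝ} (ht : |t| < 1) (x : Fin n → Bool) : 0 < wt t x :=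
  Finset.prod_pos (fun i _ => w1_pos ht (x i))

/-- centred coordinate -/
noncomputable def bt (t : ℝ) (b : Bool) : ℝ := sgn b - t

noncomputable def Bt (t : ℝ) (S : Finset (Fin n)) (x : Fin n → Bool) : ℝ := ∏ i ∈ S, bt t (x i)

lemma Bt_eq_prod (t : ℝ) (S : Finset (Fin n)) (x : Fin n → Bool) :
    Bt t S x = ∏ i, (if i ∈ S then bt t (x i) else 1) := by
  unfold Bt
  rw [Finset.prod_ite_mem, Finset.univ_inter]

lemma Et_Bt_mul (t : ℝ) (S S' : Finset (Fin n)) :
    Et t (fun x => Bt t S x * Bt t S' x) = if S = S' then (1 - t ^ 2) ^ S.card else 0 := by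
  have h : (fun x : Fin n → Bool => Bt t S x * Bt t S' x) =
      fun x => ∏ i, ((if i ∈ S then bt t (x i) else 1) * (if i ∈ S' then bt t (x i) else 1)) := by
    funext x
    rw [Bt_eq_prod, Bt_eq_prod, Finset.prod_mul_distrib]
  rw [h, Et_prod t (fun i b => (if i ∈ S then bt t b else 1) * (if i ∈ S' then bt t b else 1))]
  have bt_t : bt t true = 1 - t := by simp [bt, sgn]
  have bt_f : bt t false = -1 - t := by simp [bt, sgn]
  have e1 : ∑ b, w1 t b * bt t b = 0 := by
    rw [sum_bool_w1, bt_t, bt_f]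
    ring
  have e2 : ∑ b, w1 t b * (bt t b * bt t b) = 1 - t ^ 2 := by
    rw [sum_bool_w1, bt_t, bt_f]
    ring
  have e3 : ∑ b, w1 t b = 1 := sum_bool_w1_one t
  split_ifs with hSS
  · subst hSS
    have : ∀ i, (∑ b, w1 t b * ((if i ∈ S then bt t b else 1) * (if i ∈ S then bt t b else 1)))
        = if i ∈ S then (1 - t ^ 2) else 1 := by
      intro i
      by_cases hi : i ∈ S
      · simp only [hi, if_true]; exact e2
      · simp only [hi, if_false, mul_one]; exact e3
    simp_rw [this]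
    rw [Finset.prod_ite_mem, Finset.univ_inter, Finset.prod_const]
  · -- a coordinate in the symmetric difference
    obtain ⟨i, hi⟩ : ∃ i, ¬ (i ∈ S ↔ i ∈ S') := by
      by_contra hcon
      apply hSS
      ext i
      by_contra hi
      exact hcon ⟨i, hi⟩
    apply Finset.prod_eq_zero (Finset.mem_univ i)
    by_cases h1 : i ∈ S
    · have h2 : i ∉ S' := fun h => hi ⟨fun _ => h, fun _ => h1⟩
      simp only [h1, h2, if_true, if_false, mul_one]; exact e1
    · have h2 : i ∈ S' := by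
        by_contra h2
        exact hi ⟨fun h => absurd h h1, fun h => absurd h h2⟩
      simp only [h1, h2, if_true, if_false, one_mul]; exact e1

lemma Bt_empty (t : ℝ) (x : Fin n → Bool) : Bt t ∅ x = 1 := by
  simp [Bt]

lemma Et_Bt (t : ℝ) (S : Finset (Fin n)) :
    Et t (Bt t S) = if S = ∅ then 1 else 0 := by
  have := Et_Bt_mul t S ∅
  simp only [Bt_empty, mul_one] at this
  rw [show Et t (Bt t S) = Et t (fun x => Bt t S x) from rfl, this]
  split_ifs with h
  · subst h; simp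
  · rfl

/-- Parseval under the biased measure. -/
lemma Et_sq_sum (t : ℝ) (a : Finset (Fin n) → ℝ) :
    Et t (fun x => (∑ S, a S * Bt t S x) ^ 2) = ∑ S, a S ^ 2 * (1 - t ^ 2) ^ S.card := by
  have h : (fun x : Fin n → Bool => (∑ S, a S * Bt t S x) ^ 2) =
      fun x => ∑ S, ∑ S', a S * a S' * (Bt t S x * Bt t S' x) := by
    funext x
    rw [sq, Finset.sum_mul_sum]
    refine Finset.sum_congr rfl (fun S _ => Finset.sum_congr rfl (fun S' _ => ?_))
    ring
  rw [h, Et_sum]
  refine Finset.sum_congr rfl (fun S _ => ?_)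
  rw [Et_sum]
  simp_rw [Et_const_mul, Et_Bt_mul]
  simp [Finset.sum_ite_eq, sq]

/-- Mean of an expansion under the biased measure. -/
lemma Et_sum_Bt (t : ℝ) (a : Finset (Fin n) → ℝ) :
    Et t (fun x => ∑ S, a S * Bt t S x) = a ∅ := by
  rw [Et_sum]
  simp_rw [Et_const_mul, Et_Bt]
  simp

end Vale.Agent.Lib.P047
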