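import Vale.Agent.Lib.P047.Diff

namespace Vale.Agent.Lib.P047

open Finset

variable {n : ℕ}

lemma sum_wt (n : ℕ) (t : ℝ) : ∑ x : Fin n → Bool, wt t x = 1 := by
  have := Et_one (n := n) t
  unfold Et at this
  simpa using this

lemma one_sub_phi_pos {f : (Fin n → Bool) → ℝ} (hf : IsBoolean f) {t : ℝ} (ht : |t| < 1)
    (hx : ∃ x, f x = -1) : 0 < 1 - phi f t := by
  obtain ⟨x0, hx0⟩ := hx
  have h : 1 - phi f t = ∑ x, wt t x * (1 - f x) := by
    rw [← Et_eq_phi]
    unfold Et
    nth_rewrite 1 [← sum_wt n t]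
    rw [← Finset.sum_sub_distrib]
    refine Finset.sum_congr rfl (fun x _ => ?_)
    ring
  rw [h]
  have hnn : ∀ x ∈ (Finset.univ : Finset (Fin n → Bool)), 0 ≤ wt t x * (1 - f x) := by
    intro x _
    apply mul_nonneg (wt_pos ht x).le
    rcases hf x with h | h <;> rw [h] <;> norm_num
  refine Finset.sum_pos' hnn ⟨x0, Finset.mem_univ _, ?_⟩
  apply mul_pos (wt_pos ht x0)
  rw [hx0]; norm_num

lemma one_add_phi_pos {f : (Fin n → Bool) → ℝ} (hf : IsBoolean f) {t : ℝ} (ht : |t| < 1)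
    (hx : ∃ x, f x = 1) : 0 < 1 + phi f t := by
  obtain ⟨x0, hx0⟩ := hx
  have h : 1 + phi f t = ∑ x, wt t x * (1 + f x) := by
    rw [← Et_eq_phi]
    unfold Et
    nth_rewrite 1 [← sum_wt n t]
    rw [← Finset.sum_add_distrib]
    refine Finset.sum_congr rfl (fun x _ => ?_)
    ring
  rw [h]
  have hnn : ∀ x ∈ (Finset.univ : Finset (Fin n → Bool)), 0 ≤ wt t x * (1 + f x) := by
    intro x _
    apply mul_nonneg (wt_pos ht x).le
    rcases hf x with h | h <;> rw [h] <;> norm_num
  refine Finset.sum_pos' hnn ⟨x0, Finset.mem_univ _, ?_⟩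
  apply mul_pos (wt_pos ht x0)
  rw [hx0]; norm_num

lemma abs_phi_le {f : (Fin n → Bool) → ℝ} (hf : IsBoolean f) {t : ℝ} (ht : |t| ≤ 1) :
    |phi f t| ≤ 1 := by
  rw [← Et_eq_phi]
  unfold Et
  refine (Finset.abs_sum_le_sum_abs _ _).trans ?_
  have : ∑ x, |wt t x * f x| = ∑ x : Fin n → Bool, wt t x := by
    refine Finset.sum_congr rfl (fun x _ => ?_)
    rw [abs_mul, abs_of_nonneg (wt_nonneg ht x)]
    rcases hf x with h | h <;> rw [h] <;> norm_num
  rw [this, sum_wt]

/-- The monotone quantity. -/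
noncomputable def Lfun (f : (Fin n → Bool) → ℝ) (d : ℕ) (t : ℝ) : ℝ :=
  Real.log (1 + phi f t) - Real.log (1 - phi f t)
    - d * (Real.log (1 + t) - Real.log (1 - t))

lemma hasDerivAt_Lfun {f : (Fin n → Bool) → ℝ} (hf : IsBoolean f) (d : ℕ)
    (h1 : ∃ x, f x = 1) (h2 : ∃ x, f x = -1) {t : ℝ} (ht : |t| < 1) :
    HasDerivAt (Lfun f d)
      ((∑ i, acoef t f {i}) / (1 + phi f t) - (-(∑ i, acoef t f {i})) / (1 - phi f t)
        - d * (1 / (1 + t) - (-1) / (1 - t))) t := by
  have hp := hasDerivAt_phi f t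
  have ht' := abs_lt.mp ht
  unfold Lfun
  apply HasDerivAt.sub
  · apply HasDerivAt.sub
    · exact (hp.const_add 1).log (one_add_phi_pos hf ht h1).ne'
    · exact (hp.const_sub 1).log (one_sub_phi_pos hf ht h2).ne'
  · apply HasDerivAt.const_mul
    apply HasDerivAt.sub
    · exact ((hasDerivAt_id t).const_add 1).log (by simp only [id]; linarith)
    · exact ((hasDerivAt_id t).const_sub 1).log (by simp only [id]; linarith)

lemma deriv_Lfun_nonpos {f : (Fin n → Bool) → ℝ} (hf : IsBoolean f) {d : ℕ} (hd : DegreeLE f d)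
    (h1 : ∃ x, f x = 1) (h2 : ∃ x, f x = -1) {t : ℝ} (ht : |t| < 1) :
    deriv (Lfun f d) t ≤ 0 := by
  rw [(hasDerivAt_Lfun hf d h1 h2 ht).deriv]
  have hA := one_add_phi_pos hf ht h1
  have hB := one_sub_phi_pos hf ht h2
  have ht' := abs_lt.mp ht
  have hC : 0 < 1 + t := by linarith
  have hD : 0 < 1 - t := by linarith
  have key := diff_ineq hf hd ht.le
  set v := ∑ i, acoef t f {i} with hv
  set p := phi f t with hp
  have hvle : v ≤ |v| := le_abs_self v
  have h3 : (1 - t ^ 2) * v ≤ d * (1 - p ^ 2) := by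
    have h1t : 0 ≤ 1 - t ^ 2 := by nlinarith
    exact (mul_le_mul_of_nonneg_left hvle h1t).trans key
  have e1 : v / (1 + p) - (-v) / (1 - p) = 2 * v / ((1 + p) * (1 - p)) := by
    field_simp
    ring
  have e2 : (d : ℝ) * (1 / (1 + t) - (-1) / (1 - t)) = 2 * d / ((1 + t) * (1 - t)) := by
    field_simp
    ring
  rw [e1, e2, sub_nonpos, div_le_div_iff₀ (mul_pos hA hB) (mul_pos hC hD)]
  nlinarith

lemma Lfun_anti {f : (Fin n → Bool) → ℝ} (hf : IsBoolean f) {d : ℕ} (hd : DegreeLE f d)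
    (h1 : ∃ x, f x = 1) (h2 : ∃ x, f x = -1) {τ : ℝ} (h0 : 0 ≤ τ) (hτ : τ < 1) :
    Lfun f d τ ≤ Lfun f d (-τ) := by
  have hsub : ∀ t ∈ Set.Icc (-τ) τ, |t| < 1 := by
    intro t ht
    exact abs_lt.mpr ⟨by linarith [ht.1], by linarith [ht.2]⟩
  have hanti : AntitoneOn (Lfun f d) (Set.Icc (-τ) τ) := by
    apply antitoneOn_of_deriv_nonpos (convex_Icc _ _)
    · intro t ht
      exact (hasDerivAt_Lfun hf d h1 h2 (hsub t ht)).continuousAt.continuousWithinAt
    · intro t ht
      rw [interior_Icc] at ht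
      exact (hasDerivAt_Lfun hf d h1 h2
        (hsub t (Set.Ioo_subset_Icc_self ht))).differentiableAt.differentiableWithinAt
    · intro t ht
      rw [interior_Icc] at ht
      exact deriv_Lfun_nonpos hf hd h1 h2 (hsub t (Set.Ioo_subset_Icc_self ht))
  exact hanti (Set.left_mem_Icc.mpr (by linarith)) (Set.right_mem_Icc.mpr (by linarith))
    (by linarith)

/-- Elementary: a cross-ratio bound controls the odd part. -/
lemma cross_to_mid {p q Z : ℝ} (hp : |p| < 1) (hq : |q| < 1) (hZ : 1 ≤ Z)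
    (h : (1 + p) * (1 + q) ≤ Z ^ 2 * ((1 - p) * (1 - q))) :
    2 ≤ (Z + 1) * (1 - (p + q) / 2) := by
  have hp' := abs_lt.mp hp
  have hq' := abs_lt.mp hq
  set m := (p + q) / 2 with hm
  have hm1 : m < 1 := by rw [hm]; linarith [hp'.2, hq'.2]
  by_cases hm0 : m ≤ 0
  · nlinarith
  · push Not at hm0
    have h1 : 0 < (1 - p) * (1 - q) := mul_pos (by linarith [hp'.2]) (by linarith [hq'.2])
    set e := (p - q) / 2 with he
    have hpe : p = m + e := by rw [hm, he]; ring
    have hqe : q = m - e := by rw [hm, he]; ring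
    have h2 : (1 + m) ^ 2 * ((1 - p) * (1 - q)) ≤ (1 + p) * (1 + q) * (1 - m) ^ 2 := by
      rw [hpe, hqe]
      nlinarith [mul_nonneg (sq_nonneg e) hm0.le]
    have h3 : (1 + m) ^ 2 * ((1 - p) * (1 - q)) ≤ (Z * (1 - m)) ^ 2 * ((1 - p) * (1 - q)) := by
      calc _ ≤ (1 + p) * (1 + q) * (1 - m) ^ 2 := h2
        _ ≤ (Z ^ 2 * ((1 - p) * (1 - q))) * (1 - m) ^ 2 :=
            mul_le_mul_of_nonneg_right h (sq_nonneg _)
        _ = _ := by ring
    have h4 : (1 + m) ^ 2 ≤ (Z * (1 - m)) ^ 2 := le_of_mul_le_mul_right h3 h1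
    have h5 : 1 + m ≤ Z * (1 - m) := by
      apply le_of_sq_le_sq' h4
      apply mul_nonneg <;> linarith
    nlinarith
where
  le_of_sq_le_sq' {a b : ℝ} (h : a ^ 2 ≤ b ^ 2) (hb : 0 ≤ b) : a ≤ b := abs_le_of_sq_le_sq' h hb |>.2

/-- The two-point bound on the odd part of `φ` for a Boolean function of degree at most `d`. -/
lemma odd_part_bound {f : (Fin n → Bool) → ℝ} (hf : IsBoolean f) {d : ℕ} (hd : DegreeLE f d)
    {τ : ℝ} (h0 : 0 ≤ τ) (hτ : τ < 1) :
    2 ≤ (((1 + τ) / (1 - τ)) ^ d + 1) * (1 - (phi f τ - phi f (-τ)) / 2) := by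
  have hZ1 : 1 ≤ (1 + τ) / (1 - τ) := by
    rw [le_div_iff₀ (by linarith)]; linarith
  have hZ : 1 ≤ ((1 + τ) / (1 - τ)) ^ d := one_le_pow₀ hZ1
  have hτ1 : |τ| < 1 := by rw [abs_of_nonneg h0]; exact hτ
  have hτ2 : |-τ| < 1 := by rw [abs_neg]; exact hτ1
  by_cases h1 : ∃ x, f x = 1
  · by_cases h2 : ∃ x, f x = -1
    · -- genuinely two-valued
      have hL := Lfun_anti hf hd h1 h2 h0 hτ
      have A1 := one_add_phi_pos hf hτ1 h1
      have A2 := one_sub_phi_pos hf hτ1 h2
      have B1 := one_add_phi_pos hf hτ2 h1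
      have B2 := one_sub_phi_pos hf hτ2 h2
      have habs1 : |phi f τ| < 1 := abs_lt.mpr ⟨by linarith, by linarith⟩
      have habs2 : |-phi f (-τ)| < 1 := by
        rw [abs_neg]; exact abs_lt.mpr ⟨by linarith, by linarith⟩
      have hcr : (1 + phi f τ) * (1 + -phi f (-τ))
          ≤ (((1 + τ) / (1 - τ)) ^ d) ^ 2 * ((1 - phi f τ) * (1 - -phi f (-τ))) := by
        unfold Lfun at hL
        have ha : 0 < 1 + τ := by linarith
        have hb : 0 < 1 - τ := by linarith
        have ha' : (1 + -τ) = 1 - τ := by ring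
        have hb' : (1 - -τ) = 1 + τ := by ring
        rw [ha', hb'] at hL
        have hR : 0 < (1 + τ) / (1 - τ) := div_pos ha hb
        have hlog : Real.log ((1 + phi f τ) * (1 + -phi f (-τ)))
            ≤ Real.log ((((1 + τ) / (1 - τ)) ^ d) ^ 2 * ((1 - phi f τ) * (1 - -phi f (-τ)))) := by
          have e1 : 1 + -phi f (-τ) = 1 - phi f (-τ) := by ring
          have e2 : 1 - -phi f (-τ) = 1 + phi f (-τ) := by ring
          rw [e1, e2, Real.log_mul A1.ne' B2.ne',
            Real.log_mul (by positivity) (mul_pos A2 B1).ne', Real.log_mul A2.ne' B1.ne',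
            Real.log_pow, Real.log_pow, Real.log_div ha.ne' hb.ne']
          push_cast
          nlinarith
        have hpos : 0 < (((1 + τ) / (1 - τ)) ^ d) ^ 2 * ((1 - phi f τ) * (1 - -phi f (-τ))) := by
          have : 0 < 1 - -phi f (-τ) := by linarith
          positivity
        have hpos2 : 0 < (1 + phi f τ) * (1 + -phi f (-τ)) := by
          have : 0 < 1 + -phi f (-τ) := by linarith
          positivity
        exact (Real.log_le_log_iff hpos2 hpos).mp hlog
      have := cross_to_mid habs1 habs2 hZ hcr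
      have e : (phi f τ + -phi f (-τ)) / 2 = (phi f τ - phi f (-τ)) / 2 := by ring
      rw [e] at this
      exact this
    · -- constant one
      have hconst : ∀ x, f x = 1 := by
        intro x
        rcases hf x with h | h
        · exact h
        · exact absurd ⟨x, h⟩ h2
      have hE : ∀ t, phi f t = 1 := by
        intro t
        rw [← Et_eq_phi, show f = fun _ => (1 : ℝ) from funext hconst, Et_one]
      rw [hE, hE]
      norm_num
      linarith
  · -- constant minus one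
    have hconst : ∀ x, f x = -1 := by
      intro x
      rcases hf x with h | h
      · exact absurd ⟨x, h⟩ h1
      · exact h
    have hE : ∀ t, phi f t = -1 := by
      intro t
      rw [← Et_eq_phi, show f = fun _ => (-1 : ℝ) from funext hconst]
      have := Et_const_mul (n := n) t (-1) (fun _ => (1 : ℝ))
      simp only [mul_one] at this
      rw [this, Et_one]
      ring
    rw [hE, hE]
    norm_num
    linarith

end Vale.Agent.Lib.P047
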