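import Mathlib

namespace Vale.Agent.Lib.P047

/-- The value of a bit as a sign: `true` is `1` and `false` is `-1`. -/
def sgn (b : Bool) : ℝ := if b then 1 else -1

/-- The Walsh character `x ↦ ∏_{i ∈ S} x_i` on the discrete cube `{-1,1}^n`
(the cube is written as `Fin n → Bool`, the coordinate `x_i` being `sgn (x i)`). -/
noncomputable def chi {n : ℕ} (S : Finset (Fin n)) (x : Fin n → Bool) : ℝ := ∏ i ∈ S, sgn (x i)

/-- The Fourier coefficient `E[f(X) ∏_{i ∈ S} X_i]` for `X` uniform on the cube. -/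
noncomputable def fourier {n : ℕ} (f : (Fin n → Bool) → ℝ) (S : Finset (Fin n)) : ℝ :=
  (∑ x, f x * chi S x) / 2 ^ n

/-- `deg f ≤ d`: all Fourier coefficients at sets of size more than `d` vanish. -/
def DegreeLE {n : ℕ} (f : (Fin n → Bool) → ℝ) (d : ℕ) : Prop :=
  ∀ S : Finset (Fin n), d < S.card → fourier f S = 0

/-- `f` is Boolean: it takes values in `{-1,1}`. -/
def IsBoolean {n : ℕ} (f : (Fin n → Bool) → ℝ) : Prop :=
  ∀ x, f x = 1 ∨ f x = -1

end Vale.Agent.Lib.P047
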