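import Mathlib
import Vale.Agent.Lib.P047.Defs

/-!
# Degree four: the sum of the level-one Fourier coefficients is at most `7/4`.

Work with functions on finite subsets of `ℕ`; a point of the cube on the ground set `V` is the
set `A ⊆ V` of its coordinates equal to `-1`.
-/

namespace Vale.Agent.Lib.P047.DegFour

open Finset
open Vale.Agent.Lib.P047

/-- Scaled Fourier coefficient. -/
def FF (V : Finset ℕ) (f : Finset ℕ → ℤ) (S : Finset ℕ) : ℤ :=
  ∑ A ∈ V.powerset, f A * (-1) ^ (A ∩ S).card

/-- Scaled sum of the level-one coefficients. -/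
def LL (V : Finset ℕ) (f : Finset ℕ → ℤ) : ℤ :=
  ∑ A ∈ V.powerset, f A * ((V.card : ℤ) - 2 * A.card)

/-- `f` takes values `±1` on subsets of `V`. -/
def Bl (V : Finset ℕ) (f : Finset ℕ → ℤ) : Prop := ∀ A, A ⊆ V → f A = 1 ∨ f A = -1

/-- Fourier coefficients of size more than four vanish. -/
def Dg (V : Finset ℕ) (f : Finset ℕ → ℤ) : Prop :=
  ∀ S, S ⊆ V → 4 < S.card → FF V f S = 0

/-- Moebius transform. -/
def MM (f : Finset ℕ → ℤ) (T : Finset ℕ) : ℤ :=
  ∑ B ∈ T.powerset, (-1) ^ (T.card + B.card) * f B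

lemma FF_insert_of_subset {i : ℕ} {W S : Finset ℕ} (hi : i ∉ W) (hS : S ⊆ W)
    (f : Finset ℕ → ℤ) :
    FF (insert i W) f S = FF W f S + FF W (fun A => f (insert i A)) S := by
  unfold FF
  rw [Finset.sum_powerset_insert hi]
  congr 1
  refine Finset.sum_congr rfl fun A _ => ?_
  have : insert i A ∩ S = A ∩ S := by
    rw [Finset.insert_inter_of_notMem (fun h => hi (hS h))]
  rw [this]

lemma FF_insert_insert {i : ℕ} {W S : Finset ℕ} (hi : i ∉ W)
    (f : Finset ℕ → ℤ) :
    FF (insert i W) f (insert i S) = FF W f S - FF W (fun A => f (insert i A)) S := by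
  unfold FF
  rw [Finset.sum_powerset_insert hi, sub_eq_add_neg, ← Finset.sum_neg_distrib]
  congr 1
  · refine Finset.sum_congr rfl fun A hA => ?_
    have hiA : i ∉ A := fun h => hi (Finset.mem_powerset.mp hA h)
    rw [Finset.inter_insert_of_notMem hiA]
  · refine Finset.sum_congr rfl fun A hA => ?_
    have hiA : i ∉ A := fun h => hi (Finset.mem_powerset.mp hA h)
    have : insert i A ∩ insert i S = insert i (A ∩ S) := by
      ext x; simp only [Finset.mem_inter, Finset.mem_insert]; tauto
    rw [this, Finset.card_insert_of_notMem (fun h => hiA (Finset.mem_inter.mp h).1), pow_succ]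
    ring

lemma two_FF_left {i : ℕ} {W S : Finset ℕ} (hi : i ∉ W) (hS : S ⊆ W) (f : Finset ℕ → ℤ) :
    2 * FF W f S = FF (insert i W) f S + FF (insert i W) f (insert i S) := by
  rw [FF_insert_of_subset hi hS, FF_insert_insert hi]; ring

lemma two_FF_right {i : ℕ} {W S : Finset ℕ} (hi : i ∉ W) (hS : S ⊆ W) (f : Finset ℕ → ℤ) :
    2 * FF W (fun A => f (insert i A)) S
      = FF (insert i W) f S - FF (insert i W) f (insert i S) := by
  rw [FF_insert_of_subset hi hS, FF_insert_insert hi]; ring

lemma Dg_left {i : ℕ} {W : Finset ℕ} (hi : i ∉ W) {f : Finset ℕ → ℤ}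
    (h : Dg (insert i W) f) : Dg W f := by
  intro S hS hc
  have h1 := h S (hS.trans (Finset.subset_insert _ _)) hc
  have hiS : i ∉ S := fun h => hi (hS h)
  have h2 := h (insert i S) (Finset.insert_subset_insert _ hS)
    (by rw [Finset.card_insert_of_notMem hiS]; omega)
  have := two_FF_left hi hS f
  omega

lemma Dg_right {i : ℕ} {W : Finset ℕ} (hi : i ∉ W) {f : Finset ℕ → ℤ}
    (h : Dg (insert i W) f) : Dg W (fun A => f (insert i A)) := by
  intro S hS hc
  have h1 := h S (hS.trans (Finset.subset_insert _ _)) hc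
  have hiS : i ∉ S := fun h => hi (hS h)
  have h2 := h (insert i S) (Finset.insert_subset_insert _ hS)
    (by rw [Finset.card_insert_of_notMem hiS]; omega)
  have := two_FF_right hi hS f
  omega

lemma Bl_left {i : ℕ} {W : Finset ℕ} {f : Finset ℕ → ℤ}
    (h : Bl (insert i W) f) : Bl W f :=
  fun A hA => h A (hA.trans (Finset.subset_insert _ _))

lemma Bl_right {i : ℕ} {W : Finset ℕ} {f : Finset ℕ → ℤ}
    (h : Bl (insert i W) f) : Bl W (fun A => f (insert i A)) :=
  fun A hA => h _ (Finset.insert_subset_insert _ hA)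

/-- Top differences of large sets vanish. -/
lemma MM_eq_zero : ∀ (k : ℕ) (V : Finset ℕ), V.card = k → ∀ f : Finset ℕ → ℤ, Dg V f →
    ∀ T, T ⊆ V → 4 < T.card → MM f T = 0 := by
  intro k
  induction k with
  | zero =>
    intro V hV f _ T hT hc
    have := Finset.card_le_card hT
    omega
  | succ k ih =>
    intro V hV f hf T hT hc
    by_cases hTV : T = V
    · subst hTV
      have h := hf T (Finset.Subset.refl _) hc
      unfold FF at h
      unfold MM
      have : ∑ B ∈ T.powerset, (-1 : ℤ) ^ (T.card + B.card) * f B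
          = (-1) ^ T.card * ∑ B ∈ T.powerset, f B * (-1) ^ (B ∩ T).card := by
        rw [Finset.mul_sum]
        refine Finset.sum_congr rfl fun B hB => ?_
        rw [Finset.inter_eq_left.mpr (Finset.mem_powerset.mp hB), pow_add]; ring
      rw [this, h, mul_zero]
    · obtain ⟨i, hiV, hiT⟩ : ∃ i ∈ V, i ∉ T := by
        by_contra hcon
        refine hTV (Finset.Subset.antisymm hT fun x hx => ?_)
        by_contra hxT
        exact hcon ⟨x, hx, hxT⟩
      have hV' : insert i (V.erase i) = V := Finset.insert_erase hiV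
      have hi : i ∉ V.erase i := Finset.notMem_erase _ _
      have hf' : Dg (V.erase i) f := Dg_left hi (by rw [hV']; exact hf)
      refine ih (V.erase i) ?_ f hf' T ?_ hc
      · rw [Finset.card_erase_of_mem hiV]; omega
      · intro x hx
        exact Finset.mem_erase.mpr ⟨fun h => hiT (h ▸ hx), hT hx⟩

lemma MM_insert {a : ℕ} {T : Finset ℕ} (ha : a ∉ T) (f : Finset ℕ → ℤ) :
    MM f (insert a T) = MM (fun B => f (insert a B)) T - MM f T := by
  unfold MM
  rw [Finset.sum_powerset_insert ha, Finset.card_insert_of_notMem ha, sub_eq_add_neg,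
    ← Finset.sum_neg_distrib, add_comm]
  congr 1
  · refine Finset.sum_congr rfl fun B hB => ?_
    have haB : a ∉ B := fun h => ha (Finset.mem_powerset.mp hB h)
    rw [Finset.card_insert_of_notMem haB]
    ring
  · refine Finset.sum_congr rfl fun B _ => ?_
    ring

/-- Moebius inversion. -/
lemma sum_MM (A : Finset ℕ) : ∀ f : Finset ℕ → ℤ, ∑ T ∈ A.powerset, MM f T = f A := by
  induction A using Finset.induction_on with
  | empty =>
    intro f
    simp [MM]
  | insert a A ha ih =>
    intro f
    rw [Finset.sum_powerset_insert ha]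
    have : ∑ T ∈ A.powerset, MM f (insert a T)
        = ∑ T ∈ A.powerset, (MM (fun B => f (insert a B)) T - MM f T) := by
      refine Finset.sum_congr rfl fun T hT => ?_
      exact MM_insert (fun h => ha (Finset.mem_powerset.mp hT h)) f
    rw [this, Finset.sum_sub_distrib, ih, ih]
    ring

lemma MM_parity (T : Finset ℕ) : ∀ f : Finset ℕ → ℤ, Bl T f →
    (T = ∅ → Odd (MM f T)) ∧ (T ≠ ∅ → Even (MM f T)) := by
  have hodd : ∀ (g : Finset ℕ → ℤ) (U : Finset ℕ), Bl U g → ∀ B, B ⊆ U → Odd (g B) := by
    intro g U hg B hB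
    rcases hg B hB with h | h <;> rw [h] <;> decide
  induction T using Finset.induction_on with
  | empty =>
    intro f hf
    refine ⟨fun _ => ?_, fun h => absurd rfl h⟩
    have : MM f ∅ = f ∅ := by simp [MM]
    rw [this]
    exact hodd f ∅ hf ∅ (Finset.Subset.refl _)
  | insert a T ha ih =>
    intro f hf
    refine ⟨fun h => absurd h (Finset.insert_ne_empty _ _), fun _ => ?_⟩
    rw [MM_insert ha]
    have h1 := ih f (Bl_left hf)
    have h2 := ih (fun B => f (insert a B)) (Bl_right hf)
    by_cases hT : T = ∅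
    · exact Odd.sub_odd (h2.1 hT) (h1.1 hT)
    · exact Even.sub (h2.2 hT) (h1.2 hT)

/-- Exchange of summation through the Moebius transform. -/
lemma sum_mul_eq (V : Finset ℕ) (f h : Finset ℕ → ℤ) :
    ∑ A ∈ V.powerset, f A * h A
      = ∑ T ∈ V.powerset, MM f T * ∑ A ∈ V.powerset, (if T ⊆ A then h A else 0) := by
  calc ∑ A ∈ V.powerset, f A * h A
      = ∑ A ∈ V.powerset, ∑ T ∈ V.powerset, MM f T * (if T ⊆ A then h A else 0) := by
        refine Finset.sum_congr rfl fun A hA => ?_
        have hA' := Finset.mem_powerset.mp hA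
        rw [← sum_MM A f, Finset.sum_mul]
        have : A.powerset = V.powerset.filter (fun T => T ⊆ A) := by
          ext T
          simp only [Finset.mem_powerset, Finset.mem_filter]
          exact ⟨fun hT => ⟨hT.trans hA', hT⟩, fun hT => hT.2⟩
        rw [this, Finset.sum_filter]
        refine Finset.sum_congr rfl fun T _ => ?_
        split_ifs <;> simp
    _ = ∑ T ∈ V.powerset, ∑ A ∈ V.powerset, MM f T * (if T ⊆ A then h A else 0) :=
        Finset.sum_comm
    _ = _ := by
        refine Finset.sum_congr rfl fun T _ => ?_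
        rw [Finset.mul_sum]

/-- Lemma K: the sets between `T` and `V`. -/
lemma sum_between {V T : Finset ℕ} (hT : T ⊆ V) (w : ℕ → ℤ) :
    ∑ A ∈ V.powerset, (if T ⊆ A then w A.card else 0)
      = ∑ C ∈ (V \ T).powerset, w (T.card + C.card) := by
  rw [← Finset.sum_filter]
  refine Finset.sum_nbij' (fun A => A \ T) (fun C => T ∪ C) ?_ ?_ ?_ ?_ ?_
  · intro A hA
    simp only [Finset.mem_filter, Finset.mem_powerset] at hA
    exact Finset.mem_powerset.mpr (Finset.sdiff_subset_sdiff hA.1 (Finset.Subset.refl _))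
  · intro C hC
    have hC' := Finset.mem_powerset.mp hC
    simp only [Finset.mem_filter, Finset.mem_powerset]
    refine ⟨Finset.union_subset hT (hC'.trans Finset.sdiff_subset), Finset.subset_union_left⟩
  · intro A hA
    simp only [Finset.mem_filter, Finset.mem_powerset] at hA
    exact Finset.union_sdiff_of_subset hA.2
  · intro C hC
    have hC' := Finset.mem_powerset.mp hC
    have hd : Disjoint C T := Finset.disjoint_of_subset_left hC' Finset.sdiff_disjoint
    simpa using Finset.union_sdiff_cancel_left hd.symm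
  · intro A hA
    simp only [Finset.mem_filter, Finset.mem_powerset] at hA
    rw [← Finset.card_union_of_disjoint Finset.disjoint_sdiff, Finset.union_sdiff_of_subset hA.2]

lemma sum_two_card (X : Finset ℕ) :
    ∑ C ∈ X.powerset, ((2 : ℤ) * C.card) = X.card * 2 ^ X.card := by
  induction X using Finset.induction_on with
  | empty => simp
  | insert a X ha ih =>
    rw [Finset.sum_powerset_insert ha, ih, Finset.card_insert_of_notMem ha]
    have h1 : ∑ C ∈ X.powerset, ((2 : ℤ) * (insert a C).card)
        = ∑ C ∈ X.powerset, ((2 : ℤ) * C.card) + ∑ _C ∈ X.powerset, (2 : ℤ) := by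
      rw [← Finset.sum_add_distrib]
      refine Finset.sum_congr rfl fun C hC => ?_
      rw [Finset.card_insert_of_notMem (fun h => ha (Finset.mem_powerset.mp hC h))]
      push_cast; ring
    rw [h1, ih, Finset.sum_const, Finset.card_powerset]
    simp only [nsmul_eq_mul]
    push_cast
    ring

lemma inner_LL {V T : Finset ℕ} (hT : T ⊆ V) :
    ∑ A ∈ V.powerset, (if T ⊆ A then ((V.card : ℤ) - 2 * A.card) else 0)
      = -(T.card : ℤ) * 2 ^ (V.card - T.card) := by
  have h : ∑ A ∈ V.powerset, (if T ⊆ A then ((V.card : ℤ) - 2 * A.card) else 0)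
      = ∑ C ∈ (V \ T).powerset, ((V.card : ℤ) - 2 * ((T.card + C.card : ℕ) : ℤ)) :=
    sum_between hT (fun t => (V.card : ℤ) - 2 * (t : ℤ))
  rw [h]
  have hm : (V \ T).card = V.card - T.card := Finset.card_sdiff_of_subset hT
  have hle := Finset.card_le_card hT
  have h2 : ∑ C ∈ (V \ T).powerset, ((V.card : ℤ) - 2 * ((T.card + C.card : ℕ) : ℤ))
      = ∑ C ∈ (V \ T).powerset, (((V.card : ℤ) - 2 * T.card) - (2 : ℤ) * C.card) := by
    refine Finset.sum_congr rfl fun C _ => ?_
    push_cast; ring
  rw [h2, Finset.sum_sub_distrib, sum_two_card, Finset.sum_const, Finset.card_powerset, hm]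
  simp only [nsmul_eq_mul]
  have hcast : ((V.card - T.card : ℕ) : ℤ) = (V.card : ℤ) - T.card := by omega
  rw [hcast]
  push_cast
  ring

lemma LL_eq (V : Finset ℕ) (f : Finset ℕ → ℤ) :
    LL V f = ∑ T ∈ V.powerset, MM f T * (-(T.card : ℤ) * 2 ^ (V.card - T.card)) := by
  unfold LL
  rw [sum_mul_eq V f (fun A => (V.card : ℤ) - 2 * A.card)]
  refine Finset.sum_congr rfl fun T hT => ?_
  rw [inner_LL (Finset.mem_powerset.mp hT)]

/-- Granularity: the normalized level-one sum is a multiple of `1/4`. -/
lemma granular {V : Finset ℕ} {f : Finset ℕ → ℤ} (hB : Bl V f) (hD : Dg V f) :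
    (2 ^ V.card : ℤ) ∣ 4 * LL V f := by
  rw [LL_eq, Finset.mul_sum]
  refine Finset.dvd_sum fun T hT => ?_
  have hTV := Finset.mem_powerset.mp hT
  by_cases hc : 4 < T.card
  · rw [MM_eq_zero _ V rfl f hD T hTV hc]; simp
  · have hle := Finset.card_le_card hTV
    obtain ⟨m, hm⟩ : ∃ m, V.card = T.card + m := ⟨V.card - T.card, by omega⟩
    have hsub : V.card - T.card = m := by omega
    rw [hsub, hm, pow_add]
    have hBT : Bl T f := fun A hA => hB A (hA.trans hTV)
    by_cases hT0 : T = ∅
    · subst hT0; simp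
    · obtain ⟨c, hc'⟩ := (MM_parity T f hBT).2 hT0
      have h4 : T.card ≤ 4 := by omega
      have hpos : 0 < T.card := Finset.card_pos.mpr (Finset.nonempty_iff_ne_empty.mpr hT0)
      rw [hc']
      interval_cases hk : T.card
      · exact ⟨-4 * c, by ring⟩
      · exact ⟨-4 * c, by ring⟩
      · exact ⟨-3 * c, by ring⟩
      · exact ⟨-2 * c, by ring⟩

lemma FF_congr {V S : Finset ℕ} {f g : Finset ℕ → ℤ} (h : ∀ A, A ⊆ V → g A = f A) :
    FF V g S = FF V f S := by
  unfold FF
  refine Finset.sum_congr rfl fun A hA => ?_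
  rw [h A (Finset.mem_powerset.mp hA)]

/-- Extension by a dummy variable. -/
lemma extend {j : ℕ} {V : Finset ℕ} (hj : j ∉ V) {f : Finset ℕ → ℤ} (hB : Bl V f)
    (hD : Dg V f) :
    Bl (insert j V) (fun A => f (A.erase j)) ∧ Dg (insert j V) (fun A => f (A.erase j)) ∧
      LL (insert j V) (fun A => f (A.erase j)) = 2 * LL V f := by
  have h1 : ∀ A, A ⊆ V → (fun A => f (A.erase j)) A = f A := by
    intro A hA
    simp only
    rw [Finset.erase_eq_of_notMem (fun h => hj (hA h))]
  have h2 : ∀ A, A ⊆ V → (fun A => (fun A => f (A.erase j)) (insert j A)) A = f A := by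
    intro A hA
    simp only
    rw [Finset.erase_insert (fun h => hj (hA h))]
  refine ⟨?_, ?_, ?_⟩
  · intro A hA
    refine hB _ fun x hx => ?_
    have hx' := Finset.mem_erase.mp hx
    exact Finset.mem_of_mem_insert_of_ne (hA hx'.2) hx'.1
  · intro S hS hc
    by_cases hjS : j ∈ S
    · have hS' : insert j (S.erase j) = S := Finset.insert_erase hjS
      rw [← hS', FF_insert_insert hj, FF_congr h1, FF_congr h2]
      ring
    · have hSV : S ⊆ V := fun x hx =>
        Finset.mem_of_mem_insert_of_ne (hS hx) (fun h => hjS (h ▸ hx))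
      rw [FF_insert_of_subset hj hSV, FF_congr h1, FF_congr h2, hD S hSV hc]
      ring
  · unfold LL
    rw [Finset.sum_powerset_insert hj, Finset.card_insert_of_notMem hj, Finset.mul_sum,
      ← Finset.sum_add_distrib]
    refine Finset.sum_congr rfl fun A hA => ?_
    have hA' := Finset.mem_powerset.mp hA
    have hjA : j ∉ A := fun h => hj (hA' h)
    have e1 := h1 A hA'
    have e2 := h2 A hA'
    simp only at e1 e2
    simp only
    rw [e1, e2, Finset.card_insert_of_notMem hjA]
    push_cast
    ring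

/-- Descent identity. -/
lemma LL_insert {i : ℕ} {W : Finset ℕ} (hi : i ∉ W) (f : Finset ℕ → ℤ) :
    LL (insert i W) f = LL W f + LL W (fun A => f (insert i A)) + FF (insert i W) f {i} := by
  have h0 : FF (insert i W) f {i} = FF (insert i W) f (insert i ∅) := by simp
  rw [h0, FF_insert_insert hi]
  unfold LL FF
  rw [Finset.sum_powerset_insert hi, Finset.card_insert_of_notMem hi]
  simp only [Finset.inter_empty, Finset.card_empty, pow_zero, mul_one]
  rw [← Finset.sum_sub_distrib, ← Finset.sum_add_distrib, ← Finset.sum_add_distrib,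
    ← Finset.sum_add_distrib]
  refine Finset.sum_congr rfl fun A hA => ?_
  have hiA : i ∉ A := fun h => hi (Finset.mem_powerset.mp hA h)
  rw [Finset.card_insert_of_notMem hiA]
  push_cast
  ring

lemma sum_sign {V A : Finset ℕ} (hA : A ⊆ V) :
    ∑ i ∈ V, ((-1 : ℤ) ^ (A ∩ {i}).card) = (V.card : ℤ) - 2 * A.card := by
  have h1 : ∀ i ∈ V, ((-1 : ℤ) ^ (A ∩ {i}).card) = 1 - 2 * (if i ∈ A then 1 else 0) := by
    intro i _
    by_cases hi : i ∈ A
    · have : A ∩ {i} = {i} := by
        ext x; simp only [Finset.mem_inter, Finset.mem_singleton]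
        constructor
        · exact fun h => h.2
        · exact fun h => ⟨h ▸ hi, h⟩
      rw [this]; simp [hi]
    · have : A ∩ {i} = ∅ := by
        ext x; simp only [Finset.mem_inter, Finset.mem_singleton, Finset.notMem_empty, iff_false]
        exact fun h => hi (h.2 ▸ h.1)
      rw [this]; simp [hi]
  rw [Finset.sum_congr rfl h1, Finset.sum_sub_distrib, ← Finset.mul_sum, Finset.sum_boole,
    Finset.filter_mem_eq_inter, Finset.inter_eq_right.mpr hA]
  simp

lemma sum_FF_singleton (V : Finset ℕ) (f : Finset ℕ → ℤ) :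
    ∑ i ∈ V, FF V f {i} = LL V f := by
  unfold FF LL
  rw [Finset.sum_comm]
  refine Finset.sum_congr rfl fun A hA => ?_
  rw [← Finset.mul_sum, sum_sign (Finset.mem_powerset.mp hA)]

/-- The dual vector vanishing against polynomials of degree at most four, at `n = 8`. -/
def w5 : ℕ → ℤ
  | 0 => 40
  | 1 => -2
  | 2 => -12
  | 3 => 10
  | 4 => 0
  | 5 => -10
  | 6 => 12
  | 7 => 2
  | 8 => -40
  | _ => 0

/-- The remaining part. -/
def d5 : ℕ → ℤ
  | 1 => 32
  | 2 => 32
  | 6 => -32
  | 7 => -32
  | _ => 0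

lemma w5_add_d5 {t : ℕ} (ht : t ≤ 8) : w5 t + d5 t = 5 * (8 - 2 * (t : ℤ)) := by
  interval_cases t <;> simp [w5, d5]

lemma w5_orth {V : Finset ℕ} (hV : V.card = 8) (f : Finset ℕ → ℤ) (hD : Dg V f) :
    ∑ A ∈ V.powerset, f A * w5 A.card = 0 := by
  rw [sum_mul_eq V f (fun A => w5 A.card)]
  refine Finset.sum_eq_zero fun T hT => ?_
  have hTV := Finset.mem_powerset.mp hT
  by_cases hc : 4 < T.card
  · rw [MM_eq_zero _ V rfl f hD T hTV hc, zero_mul]
  · have inner : ∑ A ∈ V.powerset, (if T ⊆ A then w5 A.card else 0) = 0 := by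
      rw [sum_between hTV w5, Finset.sum_powerset_apply_card
        (fun k => w5 (T.card + k)) (x := V \ T), Finset.card_sdiff_of_subset hTV, hV]
      have h4 : T.card ≤ 4 := by omega
      interval_cases T.card <;> simp [Finset.sum_range_succ, w5, Nat.choose]
    rw [inner, mul_zero]

lemma base_bound {V : Finset ℕ} (hV : V.card = 8) {f : Finset ℕ → ℤ} (hB : Bl V f)
    (hD : Dg V f) : 4 * LL V f ≤ 7 * 2 ^ V.card := by
  have h5 : 5 * LL V f = ∑ A ∈ V.powerset, f A * d5 A.card := by
    have h0 := w5_orth hV f hD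
    unfold LL
    rw [Finset.mul_sum]
    rw [← add_zero (∑ A ∈ V.powerset, f A * d5 A.card), ← h0, ← Finset.sum_add_distrib]
    refine Finset.sum_congr rfl fun A hA => ?_
    have hA' := Finset.mem_powerset.mp hA
    have hle : A.card ≤ 8 := by
      have := Finset.card_le_card hA'
      omega
    have := w5_add_d5 hle
    rw [hV]
    push_cast
    linear_combination (-(f A)) * this
  have hle : ∑ A ∈ V.powerset, f A * d5 A.card ≤ 2304 := by
    have h1 : ∑ A ∈ V.powerset, f A * d5 A.card ≤ ∑ A ∈ V.powerset, |d5 A.card| := by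
      refine Finset.sum_le_sum fun A hA => ?_
      rcases hB A (Finset.mem_powerset.mp hA) with h | h <;> rw [h]
      · simpa using le_abs_self _
      · simpa using neg_le_abs _
    have h2 : ∑ A ∈ V.powerset, |d5 A.card| = 2304 := by
      rw [Finset.sum_powerset_apply_card (fun k => |d5 k|) (x := V), hV]
      simp [Finset.sum_range_succ, d5, Nat.choose]
    omega
  obtain ⟨k, hk⟩ := granular hB hD
  rw [hV] at hk ⊢
  omega

/-- Main bound. -/
theorem main_bound : ∀ (k : ℕ) (V : Finset ℕ), V.card = k → ∀ f : Finset ℕ → ℤ, Bl V f → Dg V f →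
    4 * LL V f ≤ 7 * 2 ^ V.card := by
  have low : ∀ m k : ℕ, k + m = 8 → ∀ (V : Finset ℕ), V.card = k → ∀ f : Finset ℕ → ℤ,
      Bl V f → Dg V f → 4 * LL V f ≤ 7 * 2 ^ V.card := by
    intro m
    induction m with
    | zero =>
      intro k hk V hV f hB hD
      exact base_bound (by omega) hB hD
    | succ m ih =>
      intro k hk V hV f hB hD
      obtain ⟨j, hj⟩ := Infinite.exists_notMem_finset V
      obtain ⟨h1, h2, h3⟩ := extend hj hB hD
      have := ih (k + 1) (by omega) (insert j V)
        (by rw [Finset.card_insert_of_notMem hj, hV]) _ h1 h2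
      rw [h3, Finset.card_insert_of_notMem hj, pow_succ] at this
      linarith
  intro k
  induction k with
  | zero =>
    intro V hV f hB hD
    exact low 8 0 (by omega) V hV f hB hD
  | succ k ih =>
    intro V hV f hB hD
    by_cases hk : k + 1 ≤ 8
    · exact low (8 - (k + 1)) (k + 1) (by omega) V hV f hB hD
    · have hVne : V.Nonempty := Finset.card_pos.mp (by omega)
      -- choose a coordinate with small coefficient
      have hsum : ∑ i ∈ V, ((V.card : ℤ) * FF V f {i}) ≤ ∑ _i ∈ V, LL V f := by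
        rw [← Finset.mul_sum, sum_FF_singleton, Finset.sum_const, nsmul_eq_mul]
      obtain ⟨i, hiV, hi⟩ := Finset.exists_le_of_sum_le hVne hsum
      have hV' : insert i (V.erase i) = V := Finset.insert_erase hiV
      have hW : i ∉ V.erase i := Finset.notMem_erase _ _
      have hcard : (V.erase i).card = k := by
        rw [Finset.card_erase_of_mem hiV]; omega
      have hB' : Bl (insert i (V.erase i)) f := by rw [hV']; exact hB
      have hD' : Dg (insert i (V.erase i)) f := by rw [hV']; exact hD
      have h0 := ih (V.erase i) hcard f (Bl_left hB') (Dg_left hW hD')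
      have h1 := ih (V.erase i) hcard _ (Bl_right hB') (Dg_right hW hD')
      have hid := LL_insert hW f
      rw [hV'] at hid
      rw [hcard] at h0 h1
      obtain ⟨c, hc⟩ := granular hB hD
      rw [hV]
      rw [hV] at hc hi
      -- integer arithmetic
      set X : ℤ := 2 ^ k with hX
      have hXpos : 0 < X := by positivity
      have h2k : (2 : ℤ) ^ (k + 1) = 2 * X := by rw [pow_succ, hX]; ring
      rw [h2k] at hc ⊢
      have hkreal : (9 : ℤ) ≤ ((k + 1 : ℕ) : ℤ) := by omega
      set N : ℤ := ((k + 1 : ℕ) : ℤ) with hN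
      -- N * (4 F) ≤ 4 L, 4 L = 4 L0 + 4 L1 + 4 F, 4 L0, 4 L1 ≤ 7 X, so (N - 1) * 4 L ≤ 14 N X
      have key : (N - 1) * (4 * LL V f) ≤ 14 * N * X := by
        have e : 4 * LL V f = 4 * LL (V.erase i) f
            + 4 * LL (V.erase i) (fun A => f (insert i A)) + 4 * FF V f {i} := by
          rw [hid]; ring
        have hNpos : 0 ≤ N := by omega
        have h3 : N * (4 * LL V f) ≤ N * (14 * X) + 4 * LL V f := by
          have : 4 * LL V f ≤ 14 * X + 4 * FF V f {i} := by linarith
          have h4 := mul_le_mul_of_nonneg_left this hNpos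
          nlinarith
        nlinarith
      -- so c < 8
      have hc8 : c ≤ 7 := by
        by_contra hcon
        have hc8 : 8 ≤ c := by omega
        have h5 : 16 * X ≤ 4 * LL V f := by
          rw [hc]; nlinarith
        have h6 : (N - 1) * (16 * X) ≤ (N - 1) * (4 * LL V f) :=
          mul_le_mul_of_nonneg_left h5 (by omega)
        have h7 : (N - 1) * (16 * X) ≤ 14 * N * X := h6.trans key
        nlinarith
      rw [hc]
      nlinarith

/-! ### Transfer to the cube `Fin n → Bool` -/

/-- The point of the cube whose coordinates equal to `-1` are those in `A`. -/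
def pt (n : ℕ) (A : Finset ℕ) : Fin n → Bool := fun i => decide (i.val ∉ A)

/-- The set of coordinates of `x` equal to `-1`. -/
def setOf' {n : ℕ} (x : Fin n → Bool) : Finset ℕ :=
  (Finset.univ.filter fun i : Fin n => x i = false).map Fin.valEmbedding

lemma setOf'_subset {n : ℕ} (x : Fin n → Bool) : setOf' x ⊆ Finset.range n := by
  intro j hj
  simp only [setOf', Finset.mem_map, Finset.mem_filter, Finset.mem_univ, true_and,
    Fin.valEmbedding_apply] at hj
  obtain ⟨i, _, rfl⟩ := hj
  exact Finset.mem_range.mpr i.isLt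

lemma setOf'_pt {n : ℕ} {A : Finset ℕ} (hA : A ⊆ Finset.range n) : setOf' (pt n A) = A := by
  ext j
  simp only [setOf', pt, Finset.mem_map, Finset.mem_filter, Finset.mem_univ, true_and,
    Fin.valEmbedding_apply, decide_eq_false_iff_not, not_not]
  constructor
  · rintro ⟨i, hi, rfl⟩
    exact hi
  · intro hj
    exact ⟨⟨j, Finset.mem_range.mp (hA hj)⟩, hj, rfl⟩

lemma pt_setOf' {n : ℕ} (x : Fin n → Bool) : pt n (setOf' x) = x := by
  funext i
  by_cases h : x i = false
  · have : i.val ∈ setOf' x := by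
      simp only [setOf', Finset.mem_map, Finset.mem_filter, Finset.mem_univ, true_and,
        Fin.valEmbedding_apply]
      exact ⟨i, h, rfl⟩
    simp [pt, this, h]
  · have : i.val ∉ setOf' x := by
      simp only [setOf', Finset.mem_map, Finset.mem_filter, Finset.mem_univ, true_and,
        Fin.valEmbedding_apply, not_exists, not_and]
      intro k hk hki
      exact h (Fin.ext hki ▸ hk)
    have hx : x i = true := by simpa using h
    simp [pt, this, hx]

lemma sum_cube {n : ℕ} (h : (Fin n → Bool) → ℝ) :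
    ∑ x, h x = ∑ A ∈ (Finset.range n).powerset, h (pt n A) := by
  refine Finset.sum_nbij' setOf' (pt n) ?_ ?_ ?_ ?_ ?_
  · intro x _
    exact Finset.mem_powerset.mpr (setOf'_subset x)
  · intro A _
    exact Finset.mem_univ _
  · intro x _
    exact pt_setOf' x
  · intro A hA
    exact setOf'_pt (Finset.mem_powerset.mp hA)
  · intro x _
    rw [pt_setOf']

lemma chi_pt {n : ℕ} (S : Finset (Fin n)) (A : Finset ℕ) :
    chi S (pt n A) = (((-1 : ℤ) ^ (A ∩ S.map Fin.valEmbedding).card : ℤ) : ℝ) := by
  unfold chi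
  have h1 : ∀ i ∈ S, sgn (pt n A i) = if i.val ∈ A then (-1 : ℝ) else 1 := by
    intro i _
    by_cases hi : i.val ∈ A <;> simp [sgn, pt, hi]
  rw [Finset.prod_congr rfl h1, Finset.prod_ite]
  simp only [Finset.prod_const, one_pow, mul_one]
  have h2 : (A ∩ S.map Fin.valEmbedding).card = (S.filter fun i => i.val ∈ A).card := by
    rw [← Finset.card_map Fin.valEmbedding]
    congr 1
    ext j
    simp only [Finset.mem_inter, Finset.mem_map, Finset.mem_filter, Fin.valEmbedding_apply]
    constructor
    · rintro ⟨hj, i, hi, rfl⟩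
      exact ⟨i, ⟨hi, hj⟩, rfl⟩
    · rintro ⟨i, ⟨hi, hj⟩, rfl⟩
      exact ⟨hj, i, hi, rfl⟩
  rw [h2]
  push_cast
  rfl

/-- The integer version of a Boolean function. -/
noncomputable def toInt {n : ℕ} (f : (Fin n → Bool) → ℝ) (A : Finset ℕ) : ℤ := by
  classical exact if f (pt n A) = 1 then 1 else -1

lemma toInt_cast {n : ℕ} {f : (Fin n → Bool) → ℝ} (hf : IsBoolean f) (A : Finset ℕ) :
    ((toInt f A : ℤ) : ℝ) = f (pt n A) := by
  unfold toInt
  by_cases h : f (pt n A) = 1
  · rw [if_pos h, h]; simp
  · rw [if_neg h, (hf (pt n A)).resolve_left h]; simp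

lemma sum_eq_FF {n : ℕ} {f : (Fin n → Bool) → ℝ} (hf : IsBoolean f) (S : Finset (Fin n)) :
    ∑ x, f x * chi S x
      = ((FF (Finset.range n) (toInt f) (S.map Fin.valEmbedding) : ℤ) : ℝ) := by
  rw [sum_cube]
  unfold FF
  push_cast
  refine Finset.sum_congr rfl fun A _ => ?_
  rw [chi_pt, toInt_cast hf]
  push_cast
  rfl

/-- Upper bound: every Boolean function of degree at most four has level-one sum at most `7/4`. -/
theorem upper {n : ℕ} (f : (Fin n → Bool) → ℝ) (hf : IsBoolean f) (hd : DegreeLE f 4) :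
    ∑ i, fourier f {i} ≤ 7 / 4 := by
  have hB : Bl (Finset.range n) (toInt f) := by
    intro A _
    unfold toInt
    by_cases h : f (pt n A) = 1 <;> simp [h]
  have hD : Dg (Finset.range n) (toInt f) := by
    intro S hS hc
    let S' : Finset (Fin n) := Finset.univ.filter fun i : Fin n => i.val ∈ S
    have hS' : S'.map Fin.valEmbedding = S := by
      ext j
      simp only [S', Finset.mem_map, Finset.mem_filter, Finset.mem_univ, true_and,
        Fin.valEmbedding_apply]
      constructor
      · rintro ⟨i, hi, rfl⟩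
        exact hi
      · intro hj
        exact ⟨⟨j, Finset.mem_range.mp (hS hj)⟩, hj, rfl⟩
    have hcard : S'.card = S.card := by
      rw [← hS', Finset.card_map]
    have h0 := hd S' (by omega)
    unfold fourier at h0
    have hpow : (2 : ℝ) ^ n ≠ 0 := by positivity
    have h1 : ∑ x, f x * chi S' x = 0 := by
      rcases div_eq_zero_iff.mp h0 with h | h
      · exact h
      · exact absurd h hpow
    rw [sum_eq_FF hf, hS'] at h1
    exact_mod_cast h1
  have hmain := main_bound _ (Finset.range n) rfl (toInt f) hB hD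
  rw [Finset.card_range] at hmain
  have hsum : ∑ i, fourier f {i} = ((LL (Finset.range n) (toInt f) : ℤ) : ℝ) / 2 ^ n := by
    rw [← sum_FF_singleton]
    push_cast
    rw [Finset.sum_div, ← Fin.sum_univ_eq_sum_range
      (fun j => ((FF (Finset.range n) (toInt f) {j} : ℤ) : ℝ) / 2 ^ n) n]
    refine Finset.sum_congr rfl fun i _ => ?_
    unfold fourier
    rw [sum_eq_FF hf]
    simp
  rw [hsum, div_le_iff₀ (by positivity)]
  have : ((4 * LL (Finset.range n) (toInt f) : ℤ) : ℝ) ≤ ((7 * 2 ^ n : ℤ) : ℝ) := by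
    exact_mod_cast hmain
  push_cast at this
  linarith

/-! ### Attainment -/

/-- Integer sign. -/
def isgn (b : Bool) : ℤ := if b then 1 else -1

/-- Index of a point of the seven-dimensional cube. -/
def idx (x : Fin 7 → Bool) : ℕ :=
  (x 0).toNat + 2 * (x 1).toNat + 4 * (x 2).toNat + 8 * (x 3).toNat + 16 * (x 4).toNat +
    32 * (x 5).toNat + 64 * (x 6).toNat

/-- An explicit function of degree four on seven variables with level-one sum `7/4`. -/
def ex7 (x : Fin 7 → Bool) : ℤ :=
  if Nat.testBit 168723623430395330736002881998416807936 (idx x) then 1 else -1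

theorem ex7_deg : ∀ S : Finset (Fin 7), 4 < S.card →
    ∑ x, ex7 x * ∏ i ∈ S, isgn (x i) = 0 := by
  decide +kernel

theorem ex7_lvl : ∑ i : Fin 7, ∑ x, ex7 x * ∏ j ∈ ({i} : Finset (Fin 7)), isgn (x j) = 224 := by
  decide +kernel

lemma fourier_ex7 (S : Finset (Fin 7)) :
    fourier (fun x => ((ex7 x : ℤ) : ℝ)) S
      = ((∑ x, ex7 x * ∏ i ∈ S, isgn (x i) : ℤ) : ℝ) / 2 ^ 7 := by
  unfold fourier chi
  push_cast
  congr 1
  refine Finset.sum_congr rfl fun x _ => ?_
  congr 1
  refine Finset.prod_congr rfl fun i _ => ?_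
  cases x i <;> simp [sgn, isgn]

/-- The sharp value at degree four. -/
theorem attained : ∃ (n : ℕ) (f : (Fin n → Bool) → ℝ), IsBoolean f ∧ DegreeLE f 4 ∧
    ∑ i, fourier f {i} = 7 / 4 := by
  refine ⟨7, fun x => ((ex7 x : ℤ) : ℝ), ?_, ?_, ?_⟩
  · intro x
    unfold ex7
    by_cases h : Nat.testBit 168723623430395330736002881998416807936 (idx x) = true <;> simp [h]
  · intro S hS
    rw [fourier_ex7, ex7_deg S hS]
    simp
  · simp_rw [fourier_ex7]
    rw [← Finset.sum_div, ← Int.cast_sum, ex7_lvl]
    norm_num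

end Vale.Agent.Lib.P047.DegFour
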