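import Vale.Agent.Lib.P047.Biased

namespace Vale.Agent.Lib.P047

open Finset

variable {n : ℕ}

lemma sum_chi_mul_chi (x y : Fin n → Bool) :
    ∑ T, chi T y * chi T x = if y = x then (2 : ℝ) ^ n else 0 := by
  have h : ∀ T : Finset (Fin n), chi T y * chi T x = ∏ i ∈ T, (sgn (y i) * sgn (x i)) := by
    intro T
    unfold chi
    rw [Finset.prod_mul_distrib]
  simp_rw [h]
  have h2 := Finset.prod_one_add (f := fun i => sgn (y i) * sgn (x i)) (Finset.univ : Finset (Fin n))
  rw [Finset.powerset_univ] at h2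
  rw [← h2]
  split_ifs with hxy
  · subst hxy
    have : ∀ i, 1 + sgn (y i) * sgn (y i) = 2 := by
      intro i
      unfold sgn
      cases y i <;> norm_num
    simp [this]
  · obtain ⟨i, hi⟩ : ∃ i, y i ≠ x i := by
      by_contra hcon
      apply hxy
      funext i
      by_contra hi
      exact hcon ⟨i, hi⟩
    apply Finset.prod_eq_zero (Finset.mem_univ i)
    unfold sgn
    cases hy : y i <;> cases hx : x i <;> simp_all <;> norm_num

/-- Fourier inversion. -/
lemma fourier_inversion (f : (Fin n → Bool) → ℝ) (x : Fin n → Bool) :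
    f x = ∑ T, fourier f T * chi T x := by
  unfold fourier
  have h2n : (2 : ℝ) ^ n ≠ 0 := by positivity
  have key : ∑ T, (∑ y, f y * chi T y) * chi T x = f x * 2 ^ n := by
    calc ∑ T, (∑ y, f y * chi T y) * chi T x
        = ∑ T, ∑ y, f y * (chi T y * chi T x) := by
          refine Finset.sum_congr rfl (fun T _ => ?_)
          rw [Finset.sum_mul]
          refine Finset.sum_congr rfl (fun y _ => ?_)
          ring
      _ = ∑ y, f y * ∑ T, (chi T y * chi T x) := by
          rw [Finset.sum_comm]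
          refine Finset.sum_congr rfl (fun y _ => ?_)
          rw [Finset.mul_sum]
      _ = f x * 2 ^ n := by
          simp_rw [sum_chi_mul_chi]
          simp
  have : ∑ T, (∑ y, f y * chi T y) / 2 ^ n * chi T x
      = (∑ T, (∑ y, f y * chi T y) * chi T x) / 2 ^ n := by
    rw [Finset.sum_div]
    refine Finset.sum_congr rfl (fun T _ => ?_)
    ring
  rw [this, key]
  field_simp

/-- biased coefficient -/
noncomputable def acoef (t : ℝ) (f : (Fin n → Bool) → ℝ) (S : Finset (Fin n)) : ℝ :=
  ∑ T, if S ⊆ T then fourier f T * t ^ (T \ S).card else 0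

/-- `φ(t) = E_t f` as a polynomial expression -/
noncomputable def phi (f : (Fin n → Bool) → ℝ) (t : ℝ) : ℝ :=
  ∑ T, fourier f T * t ^ T.card

lemma acoef_empty (t : ℝ) (f : (Fin n → Bool) → ℝ) : acoef t f ∅ = phi f t := by
  unfold acoef phi
  simp

lemma chi_eq (t : ℝ) (T : Finset (Fin n)) (x : Fin n → Bool) :
    chi T x = ∑ S, if S ⊆ T then Bt t S x * t ^ (T \ S).card else 0 := by
  have h : chi T x = ∏ i ∈ T, (bt t (x i) + t) := by
    unfold chi bt
    refine Finset.prod_congr rfl (fun i _ => ?_)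
    ring
  rw [h, Finset.prod_add]
  simp only [Finset.prod_const]
  rw [← Finset.sum_filter]
  apply Finset.sum_congr _ (fun S _ => rfl)
  ext S
  simp [Bt]

lemma expansion (t : ℝ) (f : (Fin n → Bool) → ℝ) (x : Fin n → Bool) :
    f x = ∑ S, acoef t f S * Bt t S x := by
  conv_lhs => rw [fourier_inversion f x]
  simp_rw [chi_eq t]
  unfold acoef
  simp_rw [Finset.mul_sum, Finset.sum_mul]
  rw [Finset.sum_comm]
  refine Finset.sum_congr rfl (fun S _ => Finset.sum_congr rfl (fun T _ => ?_))
  split_ifs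
  · ring
  · simp

lemma Et_eq_phi (t : ℝ) (f : (Fin n → Bool) → ℝ) : Et t f = phi f t := by
  rw [← acoef_empty, ← Et_sum_Bt t (acoef t f)]
  congr 1
  funext x
  exact expansion t f x

/-- discrete derivative -/
noncomputable def Dd (i : Fin n) (g : (Fin n → Bool) → ℝ) (x : Fin n → Bool) : ℝ :=
  (g (Function.update x i true) - g (Function.update x i false)) / 2

lemma Bt_update_of_not_mem (t : ℝ) {S : Finset (Fin n)} {i : Fin n} (hi : i ∉ S) (x : Fin n → Bool)
    (b : Bool) : Bt t S (Function.update x i b) = Bt t S x := by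
  unfold Bt
  refine Finset.prod_congr rfl (fun j hj => ?_)
  have : j ≠ i := fun h => hi (h ▸ hj)
  rw [Function.update_of_ne this]

lemma Bt_update_of_mem (t : ℝ) {S : Finset (Fin n)} {i : Fin n} (hi : i ∈ S) (x : Fin n → Bool)
    (b : Bool) : Bt t S (Function.update x i b) = bt t b * Bt t (S.erase i) x := by
  have h1 : Bt t S (Function.update x i b)
      = bt t b * Bt t (S.erase i) (Function.update x i b) := by
    unfold Bt
    rw [← Finset.mul_prod_erase S _ hi]
    simp
  rw [h1, Bt_update_of_not_mem t (Finset.notMem_erase i S)]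

lemma Dd_Bt (t : ℝ) (S : Finset (Fin n)) (i : Fin n) (x : Fin n → Bool) :
    Dd i (Bt t S) x = if i ∈ S then Bt t (S.erase i) x else 0 := by
  unfold Dd
  split_ifs with hi
  · rw [Bt_update_of_mem t hi, Bt_update_of_mem t hi]
    simp only [bt, sgn]
    norm_num
    ring
  · rw [Bt_update_of_not_mem t hi, Bt_update_of_not_mem t hi]
    simp

lemma sum_mem_reindex (i : Fin n) (g : Finset (Fin n) → ℝ) :
    (∑ S, if i ∈ S then g S else 0) = ∑ S, if i ∉ S then g (insert i S) else 0 := by
  rw [← Finset.sum_filter, ← Finset.sum_filter]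
  refine Finset.sum_bij' (fun S _ => S.erase i) (fun S _ => insert i S) ?_ ?_ ?_ ?_ ?_
  · intro S _; simp
  · intro S _; simp
  · intro S hS
    have : i ∈ S := by simpa using hS
    exact Finset.insert_erase this
  · intro S hS
    have : i ∉ S := by simpa using hS
    exact Finset.erase_insert this
  · intro S hS
    have : i ∈ S := by simpa using hS
    rw [Finset.insert_erase this]

/-- expansion of the derivative -/
lemma Dd_expansion (t : ℝ) (f : (Fin n → Bool) → ℝ) (i : Fin n) (x : Fin n → Bool) :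
    Dd i f x = ∑ S, (if i ∉ S then acoef t f (insert i S) else 0) * Bt t S x := by
  have h1 : Dd i f x = ∑ S, acoef t f S * Dd i (Bt t S) x := by
    unfold Dd
    rw [expansion t f (Function.update x i true), expansion t f (Function.update x i false)]
    rw [← Finset.sum_sub_distrib, Finset.sum_div]
    refine Finset.sum_congr rfl (fun S _ => ?_)
    ring
  rw [h1]
  simp_rw [Dd_Bt]
  have h2 : ∀ S : Finset (Fin n),
      acoef t f S * (if i ∈ S then Bt t (S.erase i) x else 0)
        = if i ∈ S then acoef t f S * Bt t (S.erase i) x else 0 := by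
    intro S; split_ifs <;> simp
  simp_rw [h2]
  rw [sum_mem_reindex]
  refine Finset.sum_congr rfl (fun S _ => ?_)
  by_cases hi : i ∈ S
  · simp [hi]
  · simp [hi, Finset.erase_insert hi]

lemma Et_Dd (t : ℝ) (f : (Fin n → Bool) → ℝ) (i : Fin n) :
    Et t (Dd i f) = acoef t f {i} := by
  have : Dd i f = fun x => ∑ S, (if i ∉ S then acoef t f (insert i S) else 0) * Bt t S x := by
    funext x; exact Dd_expansion t f i x
  rw [this, Et_sum_Bt]
  simp

lemma Et_Dd_sq_mul (t : ℝ) (f : (Fin n → Bool) → ℝ) (i : Fin n) :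
    (1 - t ^ 2) * Et t (fun x => (Dd i f x) ^ 2)
      = ∑ S, if i ∈ S then acoef t f S ^ 2 * (1 - t ^ 2) ^ S.card else 0 := by
  have : (fun x => (Dd i f x) ^ 2)
      = fun x => (∑ S, (if i ∉ S then acoef t f (insert i S) else 0) * Bt t S x) ^ 2 := by
    funext x; rw [Dd_expansion t f i x]
  rw [this, Et_sq_sum, sum_mem_reindex, Finset.mul_sum]
  refine Finset.sum_congr rfl (fun S _ => ?_)
  by_cases hi : i ∈ S
  · simp [hi]
  · simp only [hi, not_false_eq_true, if_true]
    rw [Finset.card_insert_of_notMem hi, pow_succ]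
    ring

lemma Dd_abs_eq_sq {f : (Fin n → Bool) → ℝ} (hf : IsBoolean f) (i : Fin n) (x : Fin n → Bool) :
    |Dd i f x| = (Dd i f x) ^ 2 := by
  unfold Dd
  rcases hf (Function.update x i true) with h1 | h1 <;>
    rcases hf (Function.update x i false) with h2 | h2 <;>
    rw [h1, h2] <;> norm_num

lemma abs_Et_Dd_le {f : (Fin n → Bool) → ℝ} (hf : IsBoolean f) {t : ℝ} (ht : |t| ≤ 1)
    (i : Fin n) : |Et t (Dd i f)| ≤ Et t (fun x => (Dd i f x) ^ 2) := by
  unfold Et
  refine (Finset.abs_sum_le_sum_abs _ _).trans (le_of_eq ?_)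
  refine Finset.sum_congr rfl (fun x _ => ?_)
  rw [abs_mul, abs_of_nonneg (wt_nonneg ht x), Dd_abs_eq_sq hf]

lemma sum_acoef_singleton (t : ℝ) (f : (Fin n → Bool) → ℝ) :
    ∑ i, acoef t f {i} = ∑ T, fourier f T * ((T.card : ℝ) * t ^ (T.card - 1)) := by
  unfold acoef
  rw [Finset.sum_comm]
  refine Finset.sum_congr rfl (fun T _ => ?_)
  have h : ∀ i : Fin n, (if ({i} : Finset (Fin n)) ⊆ T then fourier f T * t ^ (T \ {i}).card else 0)
      = if i ∈ T then fourier f T * t ^ (T.card - 1) else 0 := by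
    intro i
    by_cases hi : i ∈ T
    · have h1 : ({i} : Finset (Fin n)) ⊆ T := by simpa using hi
      have h2 : (T \ {i}).card = T.card - 1 := by
        rw [Finset.card_sdiff_of_subset h1]; simp
      simp [hi, h2]
    · have h1 : ¬ ({i} : Finset (Fin n)) ⊆ T := by simpa using hi
      simp [hi, h1]
  simp_rw [h]
  rw [Finset.sum_ite_mem, Finset.univ_inter, Finset.sum_const, nsmul_eq_mul]
  ring

lemma hasDerivAt_phi (f : (Fin n → Bool) → ℝ) (t : ℝ) :
    HasDerivAt (phi f) (∑ i, acoef t f {i}) t := by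
  rw [sum_acoef_singleton]
  unfold phi
  apply HasDerivAt.fun_sum
  intro T _
  exact (hasDerivAt_pow T.card t).const_mul _

/-- The differential inequality. -/
lemma diff_ineq {f : (Fin n → Bool) → ℝ} (hf : IsBoolean f) {d : ℕ} (hd : DegreeLE f d) {t : ℝ}
    (ht : |t| ≤ 1) :
    (1 - t ^ 2) * |∑ i, acoef t f {i}| ≤ d * (1 - phi f t ^ 2) := by
  have h1t : 0 ≤ 1 - t ^ 2 := by
    have := sq_le_one_iff_abs_le_one t
    nlinarith [this.mpr ht]
  set g : Finset (Fin n) → ℝ := fun S => acoef t f S ^ 2 * (1 - t ^ 2) ^ S.card with hg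
  have hg0 : ∀ S, 0 ≤ g S := fun S => mul_nonneg (sq_nonneg _) (pow_nonneg h1t _)
  -- total mass
  have htotal : ∑ S, g S = 1 := by
    rw [hg, ← Et_sq_sum]
    have : (fun x => (∑ S, acoef t f S * Bt t S x) ^ 2) = fun _ : Fin n → Bool => (1 : ℝ) := by
      funext x
      rw [← expansion t f x]
      rcases hf x with h | h <;> rw [h] <;> norm_num
    rw [this, Et_one]
  have hempty : g ∅ = phi f t ^ 2 := by
    simp [hg, acoef_empty]
  -- influences
  have hinf : (1 - t ^ 2) * ∑ i, Et t (fun x => (Dd i f x) ^ 2) = ∑ S, (S.card : ℝ) * g S := by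
    rw [Finset.mul_sum]
    simp_rw [Et_Dd_sq_mul]
    rw [Finset.sum_comm]
    refine Finset.sum_congr rfl (fun S _ => ?_)
    rw [Finset.sum_ite_mem, Finset.univ_inter, Finset.sum_const, nsmul_eq_mul]
  have hcoef0 : ∀ S : Finset (Fin n), d < S.card → acoef t f S = 0 := by
    intro S hS
    unfold acoef
    apply Finset.sum_eq_zero
    intro T _
    split_ifs with hST
    · rw [hd T (lt_of_lt_of_le hS (Finset.card_le_card hST))]
      simp
    · rfl
  have hbound : ∀ S : Finset (Fin n), (S.card : ℝ) * g S ≤ d * (if S = ∅ then 0 else g S) := by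
    intro S
    by_cases hS : S = ∅
    · subst hS; simp
    · simp only [hS, if_false]
      by_cases hc : d < S.card
      · have : g S = 0 := by simp [hg, hcoef0 S hc]
        simp [this]
      · have : (S.card : ℝ) ≤ d := by exact_mod_cast not_lt.mp hc
        exact mul_le_mul_of_nonneg_right this (hg0 S)
  have hsum : ∑ S : Finset (Fin n), (if S = ∅ then 0 else g S) = 1 - phi f t ^ 2 := by
    have h0 : ∑ S : Finset (Fin n), (if S = ∅ then g S else 0) = g ∅ := by simp
    have h1 : ∑ S : Finset (Fin n), ((if S = ∅ then 0 else g S) + (if S = ∅ then g S else 0))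
        = ∑ S, g S := by
      refine Finset.sum_congr rfl (fun S _ => ?_)
      split_ifs <;> simp
    rw [Finset.sum_add_distrib, h0, htotal, hempty] at h1
    linarith
  calc (1 - t ^ 2) * |∑ i, acoef t f {i}|
      ≤ (1 - t ^ 2) * ∑ i, Et t (fun x => (Dd i f x) ^ 2) := by
        apply mul_le_mul_of_nonneg_left _ h1t
        refine (Finset.abs_sum_le_sum_abs _ _).trans (Finset.sum_le_sum (fun i _ => ?_))
        rw [← Et_Dd]
        exact abs_Et_Dd_le hf ht i
    _ = ∑ S, (S.card : ℝ) * g S := hinf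
    _ ≤ ∑ S, d * (if S = ∅ then 0 else g S) := Finset.sum_le_sum (fun S _ => hbound S)
    _ = d * (1 - phi f t ^ 2) := by rw [← Finset.mul_sum, hsum]

end Vale.Agent.Lib.P047
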