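import Vale.Agent.Lib.P047.Defs

namespace Vale.Agent.Lib.P047

open Finset Polynomial

/-- `Pp k (sin² θ) * sin θ = sin ((2k+1) θ)`. -/
noncomputable def Pp : ℕ → ℝ[X]
  | 0 => 1
  | 1 => C 3 - C 4 * X
  | (k + 2) => (C 2 - C 4 * X) * Pp (k + 1) - Pp k

lemma Pp_natDegree_le : ∀ k, (Pp k).natDegree ≤ k
  | 0 => by simp [Pp]
  | 1 => by
    simp only [Pp]
    refine (natDegree_sub_le _ _).trans ?_
    simp only [natDegree_C, natDegree_C_mul_X _ (by norm_num : (4 : ℝ) ≠ 0)]
    norm_num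
  | (k + 2) => by
    simp only [Pp]
    refine (natDegree_sub_le _ _).trans (max_le ?_ ?_)
    · refine natDegree_mul_le.trans ?_
      have h1 : (C 2 - C 4 * X : ℝ[X]).natDegree ≤ 1 := by
        refine (natDegree_sub_le _ _).trans ?_
        simp only [natDegree_C, natDegree_C_mul_X _ (by norm_num : (4 : ℝ) ≠ 0)]
        norm_num
      have h2 := Pp_natDegree_le (k + 1)
      omega
    · have := Pp_natDegree_le k
      omega

lemma Pp_eval_zero : ∀ k, (Pp k).eval 0 = 2 * k + 1
  | 0 => by simp [Pp]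
  | 1 => by
    simp [Pp]
    norm_num
  | (k + 2) => by
    simp only [Pp, eval_sub, eval_mul, eval_C, eval_X, Pp_eval_zero (k + 1), Pp_eval_zero k]
    push_cast
    ring

lemma Pp_eval_sin (θ : ℝ) : ∀ k : ℕ,
    (Pp k).eval (Real.sin θ ^ 2) * Real.sin θ = Real.sin ((2 * k + 1) * θ)
  | 0 => by simp [Pp]
  | 1 => by
    simp only [Pp, eval_sub, eval_mul, eval_C, eval_X]
    have : (2 * ((1 : ℕ) : ℝ) + 1) * θ = 3 * θ := by norm_num
    rw [this, Real.sin_three_mul]
    ring
  | (k + 2) => by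
    have h1 := Pp_eval_sin θ (k + 1)
    have h0 := Pp_eval_sin θ k
    simp only [Pp, eval_sub, eval_mul, eval_C, eval_X]
    have ha : (2 * ((k + 2 : ℕ) : ℝ) + 1) * θ = (2 * ((k + 1 : ℕ) : ℝ) + 1) * θ + 2 * θ := by
      push_cast; ring
    have hb : (2 * ((k : ℕ) : ℝ) + 1) * θ = (2 * ((k + 1 : ℕ) : ℝ) + 1) * θ - 2 * θ := by
      push_cast; ring
    have hc : Real.cos (2 * θ) = 1 - 2 * Real.sin θ ^ 2 := Real.cos_two_mul' θ |>.trans (by
      have := Real.sin_sq_add_cos_sq θ
      nlinarith)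
    have hs : Real.sin ((2 * ((k + 2 : ℕ) : ℝ) + 1) * θ)
        = 2 * Real.sin ((2 * ((k + 1 : ℕ) : ℝ) + 1) * θ) * Real.cos (2 * θ)
          - Real.sin ((2 * ((k : ℕ) : ℝ) + 1) * θ) := by
      rw [ha, hb, Real.sin_add, Real.sin_sub]
      ring
    rw [hs, hc, ← h1, ← h0]
    ring

/-- Chebyshev-like nodes. -/
noncomputable def theta (E j : ℕ) : ℝ := (2 * j + 1) * Real.pi / (2 * (2 * E + 1))

noncomputable def tn (E j : ℕ) : ℝ := Real.sin (theta E j)

noncomputable def sn (E j : ℕ) : ℝ := tn E j ^ 2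

lemma theta_pos (E j : ℕ) : 0 < theta E j := by
  unfold theta
  have := Real.pi_pos
  positivity

lemma theta_le {E j : ℕ} (hj : j ≤ E) : theta E j ≤ Real.pi / 2 := by
  unfold theta
  have hpi := Real.pi_pos
  have h1 : (0 : ℝ) < 2 * (2 * E + 1) := by positivity
  rw [div_le_div_iff₀ h1 (by norm_num)]
  have : (j : ℝ) ≤ E := by exact_mod_cast hj
  nlinarith

lemma theta_lt {E j k : ℕ} (hjk : j < k) : theta E j < theta E k := by
  unfold theta
  have hpi := Real.pi_pos
  have h1 : (0 : ℝ) < 2 * (2 * E + 1) := by positivity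
  apply div_lt_div_of_pos_right _ h1
  have : (j : ℝ) < k := by exact_mod_cast hjk
  nlinarith

lemma tn_pos {E j : ℕ} (hj : j ≤ E) : 0 < tn E j := by
  unfold tn
  apply Real.sin_pos_of_pos_of_lt_pi (theta_pos E j)
  have := theta_le hj
  have := Real.pi_pos
  linarith

lemma tn_lt {E j k : ℕ} (hjk : j < k) (hk : k ≤ E) : tn E j < tn E k := by
  unfold tn
  apply Real.sin_lt_sin_of_lt_of_le_pi_div_two
  · have := theta_pos E j
    have := Real.pi_pos
    linarith
  · exact theta_le hk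
  · exact theta_lt hjk

lemma sn_pos {E j : ℕ} (hj : j ≤ E) : 0 < sn E j := by
  unfold sn
  have := tn_pos hj
  positivity

lemma sn_lt {E j k : ℕ} (hjk : j < k) (hk : k ≤ E) : sn E j < sn E k := by
  unfold sn
  have h1 := tn_lt hjk hk
  have h2 := tn_pos (hjk.le.trans hk)
  nlinarith

/-- The value of the sine polynomial at the nodes. -/
lemma sin_node (E j : ℕ) : Real.sin ((2 * (E : ℝ) + 1) * theta E j) = (-1) ^ j := by
  unfold theta
  have h1 : (2 * (E : ℝ) + 1) ≠ 0 := by positivity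
  have : (2 * (E : ℝ) + 1) * ((2 * j + 1) * Real.pi / (2 * (2 * E + 1)))
      = (j : ℝ) * Real.pi + Real.pi / 2 := by
    field_simp
  rw [this, Real.sin_add, Real.sin_nat_mul_pi, Real.cos_nat_mul_pi]
  simp

lemma Pp_node (E j : ℕ) : (Pp E).eval (sn E j) * tn E j = (-1) ^ j := by
  unfold sn tn
  rw [Pp_eval_sin, sin_node]

/-- Lagrange weight at `0`. -/
noncomputable def Lw (E j : ℕ) : ℝ := (Lagrange.basis (range (E + 1)) (sn E) j).eval 0

lemma Lw_eq (E j : ℕ) : Lw E j = ∏ m ∈ (range (E + 1)).erase j, (sn E m / (sn E m - sn E j)) := by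
  unfold Lw Lagrange.basis
  rw [eval_prod]
  refine Finset.prod_congr rfl (fun m hm => ?_)
  simp only [Lagrange.basisDivisor, eval_mul, eval_C, eval_sub, eval_X]
  rw [show sn E m - sn E j = -(sn E j - sn E m) by ring, div_neg]
  ring

lemma sn_inj (E : ℕ) : Set.InjOn (sn E) (range (E + 1) : Finset ℕ) := by
  intro a ha b hb hab
  have ha' : a ≤ E := by simpa [Nat.lt_succ_iff] using ha
  have hb' : b ≤ E := by simpa [Nat.lt_succ_iff] using hb
  rcases lt_trichotomy a b with h | h | h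
  · exact absurd hab (sn_lt h hb').ne
  · exact h
  · exact absurd hab (sn_lt h ha').ne'

/-- Lagrange interpolation at `0`. -/
lemma eval_zero_lagrange {E : ℕ} {r : ℝ[X]} (hr : r.natDegree ≤ E) :
    r.eval 0 = ∑ j ∈ range (E + 1), r.eval (sn E j) * Lw E j := by
  have hdeg : r.degree < ((range (E + 1)).card : ℕ) := by
    rw [card_range]
    refine lt_of_le_of_lt degree_le_natDegree ?_
    exact_mod_cast Nat.lt_succ_of_le hr
  have h := Lagrange.eq_interpolate (s := range (E + 1)) (v := sn E) (sn_inj E) hdeg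
  conv_lhs => rw [h]
  rw [Lagrange.interpolate_apply, eval_finsetSum]
  refine Finset.sum_congr rfl (fun j _ => ?_)
  rw [eval_mul, eval_C]
  rfl

/-- The sign of the Lagrange weight. -/
lemma Lw_sign {E j : ℕ} (hj : j ≤ E) : 0 ≤ (-1) ^ j * Lw E j := by
  rw [Lw_eq]
  have hsplit : (range (E + 1)).erase j = (range j) ∪ (Ioc j E) := by
    ext m
    simp only [mem_erase, mem_range, mem_union, mem_Ioc]
    omega
  have hdisj : Disjoint (range j) (Ioc j E) := by
    rw [Finset.disjoint_left]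
    intro m h1 h2
    simp only [mem_range] at h1
    simp only [mem_Ioc] at h2
    omega
  rw [hsplit, Finset.prod_union hdisj]
  have hlow : ∏ m ∈ range j, (sn E m / (sn E m - sn E j))
      = (-1) ^ j * ∏ m ∈ range j, (sn E m / (sn E j - sn E m)) := by
    have : ∀ m ∈ range j, sn E m / (sn E m - sn E j) = -(sn E m / (sn E j - sn E m)) := by
      intro m _
      rw [show sn E m - sn E j = -(sn E j - sn E m) by ring, div_neg]
    rw [Finset.prod_congr rfl this, Finset.prod_neg, card_range]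
  rw [hlow, ← mul_assoc, ← mul_assoc, ← pow_add, ← two_mul, pow_mul]
  have h1 : (((-1 : ℝ)) ^ 2) ^ j = 1 := by simp
  rw [h1, one_mul]
  apply mul_nonneg
  · apply Finset.prod_nonneg
    intro m hm
    have hm' : m < j := by simpa using hm
    apply div_nonneg (sn_pos (hm'.le.trans hj)).le
    linarith [sn_lt hm' hj]
  · apply Finset.prod_nonneg
    intro m hm
    have hm' := Finset.mem_Ioc.mp hm
    apply div_nonneg (sn_pos hm'.2).le
    linarith [sn_lt hm'.1 hm'.2]

lemma Lw_zero_ge (E : ℕ) : 1 ≤ Lw E 0 := by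
  rw [Lw_eq]
  apply Finset.prod_induction _ (fun x : ℝ => 1 ≤ x)
    (fun a b ha hb => one_le_mul_of_one_le_of_one_le ha hb) (le_refl 1)
  intro m hm
  have hm1 : m ≠ 0 := (Finset.mem_erase.mp hm).1
  have hm2 : m ≤ E := by
    have := (Finset.mem_erase.mp hm).2
    simpa [Nat.lt_succ_iff] using this
  have hlt := sn_lt (Nat.pos_of_ne_zero hm1) hm2
  have hpos0 := sn_pos (Nat.zero_le E)
  rw [le_div_iff₀ (by linarith)]
  linarith

/-- the normalised absolute weights -/
noncomputable def Aw (E j : ℕ) : ℝ := (-1) ^ j * Lw E j / tn E j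

lemma Aw_nonneg {E j : ℕ} (hj : j ≤ E) : 0 ≤ Aw E j :=
  div_nonneg (Lw_sign hj) (tn_pos hj).le

lemma Aw_sum (E : ℕ) : ∑ j ∈ range (E + 1), Aw E j = 2 * E + 1 := by
  have h := eval_zero_lagrange (Pp_natDegree_le E)
  rw [Pp_eval_zero] at h
  rw [h]
  refine Finset.sum_congr rfl (fun j hj => ?_)
  have hj' : j ≤ E := by simpa [Nat.lt_succ_iff] using hj
  have ht := (tn_pos hj').ne'
  have h1 : (Pp E).eval (sn E j) = (-1) ^ j / tn E j := by
    rw [eq_div_iff ht]
    exact Pp_node E j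
  rw [h1]
  unfold Aw
  ring

lemma Aw_zero_ge (E : ℕ) : 2 * (2 * (E : ℝ) + 1) / Real.pi ≤ Aw E 0 := by
  unfold Aw
  simp only [pow_zero, one_mul]
  have ht := tn_pos (Nat.zero_le E)
  have hL := Lw_zero_ge E
  have hle : tn E 0 ≤ Real.pi / (2 * (2 * E + 1)) := by
    unfold tn
    have h1 := Real.sin_le (theta_pos E 0).le
    have h2 : theta E 0 = Real.pi / (2 * (2 * E + 1)) := by
      unfold theta
      simp
    rw [← h2]
    exact h1
  have hpi := Real.pi_pos
  have hpos : 0 < Real.pi / (2 * (2 * (E : ℝ) + 1)) := by positivity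
  calc 2 * (2 * (E : ℝ) + 1) / Real.pi = 1 / (Real.pi / (2 * (2 * E + 1))) := by
        field_simp
    _ ≤ 1 / tn E 0 := one_div_le_one_div_of_le ht hle
    _ ≤ Lw E 0 / tn E 0 := by
        apply div_le_div_of_nonneg_right hL ht.le

/-- The main interpolation inequality. -/
lemma interpolation_bound {E : ℕ} {r : ℝ[X]} (hr : r.natDegree ≤ E) {m : ℝ} (hm : m ≤ 1)
    (h1 : ∀ j ≤ E, tn E j * r.eval (sn E j) ≤ 1)
    (h2 : ∀ j ≤ E, -1 ≤ tn E j * r.eval (sn E j))
    (h3 : tn E 0 * r.eval (sn E 0) ≤ m) :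
    r.eval 0 ≤ (2 * E + 1) - (1 - m) * (2 * (2 * E + 1) / Real.pi) := by
  have hlag := eval_zero_lagrange hr
  have hterm : ∀ j ≤ E, r.eval (sn E j) * Lw E j
      = ((-1) ^ j * (tn E j * r.eval (sn E j))) * Aw E j := by
    intro j hj
    have ht := (tn_pos hj).ne'
    unfold Aw
    have hsq : ((-1 : ℝ) ^ j) * (-1) ^ j = 1 := by
      rw [← mul_pow]; norm_num
    field_simp
    have : r.eval (sn E j) * Lw E j * 1 = r.eval (sn E j) * Lw E j := by ring
    calc r.eval (sn E j) * Lw E j = (((-1 : ℝ) ^ j) * (-1) ^ j) * (r.eval (sn E j) * Lw E j) := by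
          rw [hsq, one_mul]
      _ = _ := by ring
  have hle : ∀ j ∈ range (E + 1),
      r.eval (sn E j) * Lw E j ≤ (if j = 0 then m else 1) * Aw E j := by
    intro j hj
    have hj' : j ≤ E := by simpa [Nat.lt_succ_iff] using hj
    rw [hterm j hj']
    apply mul_le_mul_of_nonneg_right _ (Aw_nonneg hj')
    by_cases hj0 : j = 0
    · subst hj0
      simpa using h3
    · simp only [hj0, if_false]
      rcases neg_one_pow_eq_or ℝ j with hs | hs <;> rw [hs]
      · linarith [h1 j hj']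
      · linarith [h2 j hj']
  have hsum : ∑ j ∈ range (E + 1), (if j = 0 then m else 1) * Aw E j
      = (2 * E + 1) - (1 - m) * Aw E 0 := by
    have h0 : (0 : ℕ) ∈ range (E + 1) := by simp
    have e1 : ∑ j ∈ range (E + 1), (if j = 0 then m else 1) * Aw E j
        = ∑ j ∈ range (E + 1), (Aw E j - (if j = 0 then (1 - m) * Aw E 0 else 0)) := by
      refine Finset.sum_congr rfl (fun j _ => ?_)
      by_cases hj : j = 0
      · subst hj; simp; ring
      · simp [hj]
    rw [e1, Finset.sum_sub_distrib, Aw_sum]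
    simp
  rw [hlag]
  refine (Finset.sum_le_sum hle).trans ?_
  rw [hsum]
  have := Aw_zero_ge E
  have h1m : 0 ≤ 1 - m := by linarith
  have := mul_le_mul_of_nonneg_left this h1m
  linarith

end Vale.Agent.Lib.P047
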