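import Vale.Agent.Lib.P047.Cross
import Vale.Agent.Lib.P047.Poly

namespace Vale.Agent.Lib.P047

open Finset Polynomial

variable {n : ℕ}

/-- The odd part of `φ`, as a polynomial in `t²`. -/
noncomputable def rf (f : (Fin n → Bool) → ℝ) : ℝ[X] :=
  ∑ T, if Odd T.card then C (fourier f T) * X ^ ((T.card - 1) / 2) else 0

lemma rf_natDegree {f : (Fin n → Bool) → ℝ} {d E : ℕ} (hd : DegreeLE f d) (hE : d ≤ 2 * E + 2) :
    (rf f).natDegree ≤ E := by
  unfold rf
  apply Polynomial.natDegree_sum_le_of_forall_le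
  intro T _
  split_ifs with hodd
  · by_cases hT : d < T.card
    · rw [hd T hT]; simp
    · refine (natDegree_C_mul_X_pow_le _ _).trans ?_
      obtain ⟨k, hk⟩ := hodd
      omega
  · simp

lemma rf_eval (f : (Fin n → Bool) → ℝ) (t : ℝ) :
    t * (rf f).eval (t ^ 2) = (phi f t - phi f (-t)) / 2 := by
  unfold rf phi
  rw [eval_finsetSum, Finset.mul_sum, ← Finset.sum_sub_distrib, Finset.sum_div]
  refine Finset.sum_congr rfl (fun T _ => ?_)
  split_ifs with hodd
  · simp only [eval_mul, eval_C, eval_pow, eval_X]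
    obtain ⟨k, hk⟩ := hodd
    have h1 : (T.card - 1) / 2 = k := by omega
    rw [h1, hk, Odd.neg_pow ⟨k, rfl⟩]
    ring
  · have heven : Even T.card := Nat.not_odd_iff_even.mp hodd
    rw [heven.neg_pow]
    simp

lemma acoef_zero_singleton (f : (Fin n → Bool) → ℝ) (i : Fin n) :
    acoef 0 f {i} = fourier f {i} := by
  unfold acoef
  rw [Finset.sum_eq_single {i}]
  · simp
  · intro T _ hT
    split_ifs with hsub
    · have : (T \ {i}).Nonempty := by
        rw [Finset.sdiff_nonempty]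
        intro h
        exact hT (Finset.Subset.antisymm h hsub)
      rw [zero_pow (Finset.card_ne_zero.mpr this)]
      simp
    · rfl
  · simp

lemma rf_eval_zero (f : (Fin n → Bool) → ℝ) :
    (rf f).eval 0 = ∑ i, fourier f {i} := by
  have h1 := sum_acoef_singleton 0 f
  simp_rw [acoef_zero_singleton] at h1
  rw [h1]
  unfold rf
  rw [eval_finsetSum]
  refine Finset.sum_congr rfl (fun T _ => ?_)
  split_ifs with hodd
  · simp only [eval_mul, eval_C, eval_pow, eval_X]
    congr 1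
    obtain ⟨k, hk⟩ := hodd
    have h2 : (T.card - 1) / 2 = k := by omega
    have h3 : T.card - 1 = 2 * k := by omega
    rw [h2, h3, hk]
    rcases Nat.eq_zero_or_pos k with hk0 | hk0
    · subst hk0; simp
    · rw [zero_pow (by omega), zero_pow (by omega)]
      simp
  · have heven : Even T.card := Nat.not_odd_iff_even.mp hodd
    rcases Nat.eq_zero_or_pos T.card with h0 | h0
    · simp [h0]
    · obtain ⟨k, hk⟩ := heven
      have : T.card - 1 ≠ 0 := by omega
      simp [zero_pow this]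

lemma tn_le_one (E j : ℕ) : tn E j ≤ 1 := Real.sin_le_one _

lemma node_bounds {f : (Fin n → Bool) → ℝ} (hf : IsBoolean f) {E j : ℕ} (hj : j ≤ E) :
    tn E j * (rf f).eval (sn E j) ≤ 1 ∧ -1 ≤ tn E j * (rf f).eval (sn E j) := by
  have h0 := tn_pos hj
  have h1 : |tn E j| ≤ 1 := by
    rw [abs_of_pos h0]; exact tn_le_one E j
  have h2 : |-tn E j| ≤ 1 := by rwa [abs_neg]
  have ha := abs_le.mp (abs_phi_le hf h1)
  have hb := abs_le.mp (abs_phi_le hf h2)
  unfold sn
  rw [rf_eval]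
  constructor <;> linarith [ha.1, ha.2, hb.1, hb.2]

/-- The level-one sum is at most the largest odd number not exceeding the degree bound. -/
lemma level_one_le_odd {f : (Fin n → Bool) → ℝ} (hf : IsBoolean f) {d E : ℕ} (hd : DegreeLE f d)
    (hE : d ≤ 2 * E + 2) : ∑ i, fourier f {i} ≤ 2 * E + 1 := by
  rw [← rf_eval_zero]
  have := interpolation_bound (rf_natDegree hd hE) (le_refl (1 : ℝ))
    (fun j hj => (node_bounds hf hj).1) (fun j hj => (node_bounds hf hj).2)
    (node_bounds hf (Nat.zero_le E)).1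
  simpa using this

/-- The improved bound, in terms of `Z = ((1+τ)/(1-τ))^d` with `τ = sin (π / (2(2E+1)))`. -/
lemma level_one_le_improved {f : (Fin n → Bool) → ℝ} (hf : IsBoolean f) {d E : ℕ}
    (hd : DegreeLE f d) (hE : d ≤ 2 * E + 2) {Z : ℝ} (hτ : tn E 0 < 1)
    (hZ : ((1 + tn E 0) / (1 - tn E 0)) ^ d ≤ Z) :
    ∑ i, fourier f {i} ≤ (2 * E + 1) - 2 / (Z + 1) * (2 * (2 * E + 1) / Real.pi) := by
  rw [← rf_eval_zero]
  set τ := tn E 0 with hτdef
  have h0 : 0 < τ := tn_pos (Nat.zero_le E)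
  have hodd := odd_part_bound hf hd h0.le hτ
  have hm : τ * (rf f).eval (sn E 0) = (phi f τ - phi f (-τ)) / 2 := by
    unfold sn
    rw [rf_eval]
  set m := (phi f τ - phi f (-τ)) / 2 with hmdef
  have hZ1 : 1 ≤ ((1 + τ) / (1 - τ)) ^ d := by
    apply one_le_pow₀
    rw [le_div_iff₀ (by linarith)]
    linarith
  have hZpos : 0 < Z + 1 := by linarith
  have hm1 : 2 / (Z + 1) ≤ 1 - m := by
    rw [div_le_iff₀ hZpos]
    have hmle : 0 ≤ 1 - m := by
      by_contra hneg
      push Not at hneg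
      have hZ2 : 0 < ((1 + τ) / (1 - τ)) ^ d + 1 := by linarith
      have := mul_neg_of_pos_of_neg hZ2 hneg
      linarith
    nlinarith
  have hmle1 : m ≤ 1 := by
    have : 0 < 2 / (Z + 1) := by positivity
    linarith
  have := interpolation_bound (rf_natDegree hd hE) hmle1
    (fun j hj => (node_bounds hf hj).1) (fun j hj => (node_bounds hf hj).2) hm.le
  refine this.trans ?_
  have hD : 0 ≤ 2 * (2 * (E : ℝ) + 1) / Real.pi := by
    have := Real.pi_pos
    positivity
  have := mul_le_mul_of_nonneg_right hm1 hD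
  linarith

lemma exp_18_5_le : Real.exp (18 / 5) ≤ 41 := by
  have h1 : Real.exp (18 / 5) ^ 5 ≤ 41 ^ 5 := by
    rw [← Real.exp_nat_mul]
    have : ((5 : ℕ) : ℝ) * (18 / 5) = ((18 : ℕ) : ℝ) * 1 := by norm_num
    rw [this, Real.exp_nat_mul]
    calc Real.exp 1 ^ 18 ≤ (2.7182818286 : ℝ) ^ 18 :=
          pow_le_pow_left₀ (Real.exp_pos 1).le Real.exp_one_lt_d9.le 18
      _ ≤ 41 ^ 5 := by norm_num
  exact le_of_pow_le_pow_left₀ (by norm_num) (by norm_num) h1

/-- Exponential control of the cross-ratio factor. -/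
lemma Z_le_of_exp {τ x : ℝ} {d : ℕ} (h0 : 0 ≤ τ) (hx : τ ≤ x) (hx1 : x < 1)
    (hexp : (d : ℝ) * (x + x / (1 - x)) ≤ 18 / 5) : ((1 + τ) / (1 - τ)) ^ d ≤ 41 := by
  have hb : 0 < 1 - x := by linarith
  have hb' : 0 < 1 - τ := by linarith
  have hstep : (1 + τ) / (1 - τ) ≤ Real.exp (x + x / (1 - x)) := by
    have h1 : (1 + τ) / (1 - τ) ≤ (1 + x) / (1 - x) := by
      rw [div_le_div_iff₀ hb' hb]
      nlinarith
    have h2 : 1 + x ≤ Real.exp x := by linarith [Real.add_one_le_exp x]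
    have h3 : 1 / (1 - x) ≤ Real.exp (x / (1 - x)) := by
      have := Real.add_one_le_exp (x / (1 - x))
      have e : x / (1 - x) + 1 = 1 / (1 - x) := by field_simp; ring
      rw [e] at this
      exact this
    calc (1 + τ) / (1 - τ) ≤ (1 + x) / (1 - x) := h1
      _ = (1 + x) * (1 / (1 - x)) := by ring
      _ ≤ Real.exp x * Real.exp (x / (1 - x)) :=
          mul_le_mul h2 h3 (by positivity) (Real.exp_pos _).le
      _ = _ := by rw [Real.exp_add]
  have hone : 0 ≤ (1 + τ) / (1 - τ) := by positivity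
  calc ((1 + τ) / (1 - τ)) ^ d ≤ (Real.exp (x + x / (1 - x))) ^ d := pow_le_pow_left₀ hone hstep d
    _ = Real.exp ((d : ℝ) * (x + x / (1 - x))) := by rw [Real.exp_nat_mul]
    _ ≤ Real.exp (18 / 5) := Real.exp_le_exp.mpr hexp
    _ ≤ 41 := exp_18_5_le

lemma tn_zero_le (E : ℕ) : tn E 0 ≤ Real.pi / (2 * (2 * E + 1)) := by
  unfold tn
  have h1 := Real.sin_le (theta_pos E 0).le
  have h2 : theta E 0 = Real.pi / (2 * (2 * E + 1)) := by
    unfold theta
    simp
  rw [← h2]
  exact h1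

/-- A numeric corollary of `Z ≤ 41`. -/
lemma final_numeric {D d : ℝ} (hD0 : 0 ≤ D) (hDd : D ≤ d) :
    D - 2 / ((41 : ℝ) + 1) * (2 * D / Real.pi) ≤ 97 / 100 * d := by
  have hpi := Real.pi_pos
  have hpi2 : Real.pi < 3.1416 := Real.pi_lt_d4
  have h : (3 / 100 : ℝ) ≤ 2 / ((41 : ℝ) + 1) * (2 / Real.pi) := by
    have : (2 : ℝ) / ((41 : ℝ) + 1) * (2 / Real.pi) = 4 / (42 * Real.pi) := by
      field_simp
      ring
    rw [this, le_div_iff₀ (by positivity)]
    nlinarith
  have h2 := mul_le_mul_of_nonneg_right h hD0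
  have e : 2 / ((41 : ℝ) + 1) * (2 * D / Real.pi) = 2 / ((41 : ℝ) + 1) * (2 / Real.pi) * D := by
    ring
  rw [e]
  nlinarith

lemma x_le (E : ℕ) {c : ℝ} (hc : 0 < c) (h : c ≤ 2 * (2 * (E : ℝ) + 1)) :
    Real.pi / (2 * (2 * (E : ℝ) + 1)) ≤ 3.1416 / c := by
  have hpi := Real.pi_pos
  have hpi2 : Real.pi < 3.1416 := Real.pi_lt_d4
  rw [div_le_div_iff₀ (by positivity) hc]
  nlinarith

/-- Case `d = 3`. -/
lemma Z_three : ((1 + tn 1 0) / (1 - tn 1 0)) ^ 3 ≤ 41 := by
  have hx := x_le 1 (c := 6) (by norm_num) (by norm_num)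
  have hτ := tn_zero_le 1
  have h0 : 0 ≤ tn 1 0 := (tn_pos (Nat.zero_le 1)).le
  have hb : tn 1 0 ≤ 0.5236 := by
    refine hτ.trans (hx.trans ?_)
    norm_num
  have hle : (1 + tn 1 0) / (1 - tn 1 0) ≤ (1 + 0.5236) / (1 - 0.5236) := by
    rw [div_le_div_iff₀ (by linarith) (by norm_num)]
    nlinarith
  calc ((1 + tn 1 0) / (1 - tn 1 0)) ^ 3
      ≤ ((1 + 0.5236) / (1 - 0.5236)) ^ 3 :=
        pow_le_pow_left₀ (div_nonneg (by linarith) (by linarith)) hle _
    _ ≤ 41 := by norm_num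

/-- Case `d = 5`. -/
lemma Z_five : ((1 + tn 2 0) / (1 - tn 2 0)) ^ 5 ≤ 41 := by
  have hx := x_le 2 (c := 10) (by norm_num) (by norm_num)
  have hτ := tn_zero_le 2
  have h0 : 0 ≤ tn 2 0 := (tn_pos (Nat.zero_le 2)).le
  have hb : tn 2 0 ≤ 0.31416 := by
    refine hτ.trans (hx.trans ?_)
    norm_num
  have hle : (1 + tn 2 0) / (1 - tn 2 0) ≤ (1 + 0.31416) / (1 - 0.31416) := by
    rw [div_le_div_iff₀ (by linarith) (by norm_num)]
    nlinarith
  calc ((1 + tn 2 0) / (1 - tn 2 0)) ^ 5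
      ≤ ((1 + 0.31416) / (1 - 0.31416)) ^ 5 :=
        pow_le_pow_left₀ (div_nonneg (by linarith) (by linarith)) hle _
    _ ≤ 41 := by norm_num

/-- `d = 2E + 1` with `E ≥ 3`. -/
lemma Z_odd {E : ℕ} (hE : 3 ≤ E) :
    ((1 + tn E 0) / (1 - tn E 0)) ^ (2 * E + 1) ≤ 41 := by
  have hER : (3 : ℝ) ≤ E := by exact_mod_cast hE
  have hpi := Real.pi_pos
  have hpi2 : Real.pi < 3.1416 := Real.pi_lt_d4
  have hτ := tn_zero_le E
  have h0 : 0 ≤ tn E 0 := (tn_pos (Nat.zero_le E)).le
  have hx := x_le E (c := 14) (by norm_num) (by nlinarith)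
  set x := Real.pi / (2 * (2 * (E : ℝ) + 1)) with hxdef
  have hxpos : 0 < x := by positivity
  have hx1 : x ≤ 0.2245 := by
    refine hx.trans ?_
    norm_num
  have hfrac : x + x / (1 - x) ≤ x * 2.29 := by
    have hb : 0 < 1 - x := by linarith
    have : x / (1 - x) ≤ x * 1.29 := by
      rw [div_le_iff₀ hb]
      have : (1.29 : ℝ) * (1 - x) ≥ 1 := by nlinarith
      nlinarith
    linarith
  apply Z_le_of_exp h0 hτ (by linarith)
  have hdx : (((2 * E + 1 : ℕ) : ℝ)) * x = Real.pi / 2 := by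
    rw [hxdef]
    push_cast
    field_simp
  calc (((2 * E + 1 : ℕ) : ℝ)) * (x + x / (1 - x)) ≤ ((2 * E + 1 : ℕ) : ℝ) * (x * 2.29) :=
        mul_le_mul_of_nonneg_left hfrac (by positivity)
    _ = (((2 * E + 1 : ℕ) : ℝ) * x) * 2.29 := by ring
    _ ≤ 18 / 5 := by
        rw [hdx]
        norm_num at hpi2 ⊢
        linarith

/-- `d = 2E + 2` with `E` large. -/
lemma Z_even {E : ℕ} (hE : (15.6 : ℝ) ≤ E) :
    ((1 + tn E 0) / (1 - tn E 0)) ^ (2 * E + 2) ≤ 41 := by
  have hpi := Real.pi_pos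
  have hpi2 : Real.pi < 3.1416 := Real.pi_lt_d4
  have hτ := tn_zero_le E
  have h0 : 0 ≤ tn E 0 := (tn_pos (Nat.zero_le E)).le
  have hx := x_le E (c := 64) (by norm_num) (by nlinarith)
  set x := Real.pi / (2 * (2 * (E : ℝ) + 1)) with hxdef
  have hxpos : 0 < x := by positivity
  have hx1 : x ≤ 0.0491 := by
    refine hx.trans ?_
    norm_num
  have hfrac : x + x / (1 - x) ≤ x * 2.1 := by
    have hb : 0 < 1 - x := by linarith
    have : x / (1 - x) ≤ x * 1.1 := by
      rw [div_le_iff₀ hb]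
      have : (1.1 : ℝ) * (1 - x) ≥ 1 := by nlinarith
      nlinarith
    linarith
  apply Z_le_of_exp h0 hτ (by linarith)
  have hdx : (((2 * E + 2 : ℕ) : ℝ)) * x = Real.pi / 2 + x := by
    rw [hxdef]
    push_cast
    field_simp
    ring
  calc (((2 * E + 2 : ℕ) : ℝ)) * (x + x / (1 - x)) ≤ ((2 * E + 2 : ℕ) : ℝ) * (x * 2.1) :=
        mul_le_mul_of_nonneg_left hfrac (by positivity)
    _ = (((2 * E + 2 : ℕ) : ℝ) * x) * 2.1 := by ring
    _ ≤ 18 / 5 := by
        rw [hdx]
        norm_num at hpi2 ⊢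
        nlinarith

lemma tn_zero_lt_one {E : ℕ} (hE : 1 ≤ E) : tn E 0 < 1 := by
  have hER : (1 : ℝ) ≤ E := by exact_mod_cast hE
  have hτ := tn_zero_le E
  have hx := x_le E (c := 6) (by norm_num) (by nlinarith)
  have : (3.1416 : ℝ) / 6 < 1 := by norm_num
  linarith

/-- The main theorem: for `d ≥ 2`, the sum of the level-one Fourier coefficients of a Boolean
function of degree at most `d` is at most `0.97 d`. -/
theorem main_bound {f : (Fin n → Bool) → ℝ} (hf : IsBoolean f) {d : ℕ} (hd2 : 2 ≤ d)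
    (hd : DegreeLE f d) : ∑ i, fourier f {i} ≤ 97 / 100 * d := by
  -- choose `E` with `2E + 1 ≤ d ≤ 2E + 2`
  obtain ⟨E, hE1, hE2⟩ : ∃ E : ℕ, 2 * E + 1 ≤ d ∧ d ≤ 2 * E + 2 := ⟨(d - 1) / 2, by omega, by omega⟩
  have hbase := level_one_le_odd hf hd hE2
  have hdR : (2 : ℝ) ≤ d := by exact_mod_cast hd2
  by_cases hsmall : (2 * (E : ℝ) + 1) ≤ 97 / 100 * d
  · exact hbase.trans hsmall
  · push Not at hsmall
    have hE1R : 2 * (E : ℝ) + 1 ≤ d := by exact_mod_cast hE1
    have hEpos : 1 ≤ E := by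
      by_contra hcon
      have : E = 0 := by omega
      subst this
      norm_num at hsmall
      linarith
    have hτ1 := tn_zero_lt_one hEpos
    have hZ : ((1 + tn E 0) / (1 - tn E 0)) ^ d ≤ 41 := by
      by_cases hodd : d = 2 * E + 1
      · subst hodd
        by_cases hE3 : 3 ≤ E
        · exact Z_odd hE3
        · have : E = 1 ∨ E = 2 := by omega
          rcases this with h | h
          · subst h; exact Z_three
          · subst h; exact Z_five
      · have hd' : d = 2 * E + 2 := by omega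
        subst hd'
        apply Z_even
        push_cast at hsmall
        nlinarith
    have himp := level_one_le_improved hf hd hE2 hτ1 hZ
    refine himp.trans ?_
    exact final_numeric (D := 2 * (E : ℝ) + 1) (d := d) (by positivity) hE1R

end Vale.Agent.Lib.P047
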